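import Crest.Prelude.Def_NumRangeMetric

/-!
# Row 132 (completely bounded Crouzeix theorem): shared definitions
-/

set_option autoImplicit false

namespace Crest.Agent.R132

open Polynomial Metric Set
open Crest.AnalysisR.NumRange

/-- `Rep U A f q`: on `U` we have `f = q + minpoly A * h` with `h` holomorphic on `U`.
When the spectrum of `A` lies in the open set `U`, this says `f(A) = q(A)` in the sense of the
holomorphic functional calculus. -/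
def Rep {n : ℕ} (U : Set ℂ) (A : Matrix (Fin n) (Fin n) ℂ) (f : ℂ → ℂ) (q : ℂ[X]) : Prop :=
  ∃ h : ℂ → ℂ, DifferentiableOn ℂ h U ∧ ∀ z ∈ U, f z = q.eval z + (minpoly ℂ A).eval z * h z

/-- The operator `q[A]` on `ℂⁿ ⊗ ℂᵐ` for a matrix `q` of polynomials. -/
noncomputable def matFn {n m : ℕ} (A : Matrix (Fin n) (Fin n) ℂ) (q : Fin m → Fin m → ℂ[X]) :
    Matrix (Fin n × Fin m) (Fin n × Fin m) ℂ :=
  Matrix.of fun i j => Polynomial.aeval A (q i.2 j.2) i.1 j.1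

/-- The completely bounded Crouzeix inequality for matrices (proved in `R132/Main.lean`). -/
def CbCrouzeix : Prop :=
  ∀ (n m : ℕ) (A : Matrix (Fin n) (Fin n) ℂ) (U : Set ℂ), IsOpen U → numRange A ⊆ U →
    ∀ (F : ℂ → Matrix (Fin m) (Fin m) ℂ) (q : Fin m → Fin m → ℂ[X]),
      (∀ c d, Rep U A (fun z => F z c d) (q c d)) → ∀ M : ℝ, 0 ≤ M →
      (∀ z ∈ numRange A, ‖Matrix.toEuclideanCLM (n := Fin m) (𝕜 := ℂ) (F z)‖ ≤ M) →
      ‖Matrix.toEuclideanCLM (n := Fin n × Fin m) (𝕜 := ℂ) (matFn A q)‖ ≤ 2 * M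

/-- The Riemann mapping theorem for bounded domains, with the inverse map
(proved in `Lib/Conformal/RMT.lean`). -/
def RMT : Prop :=
  ∀ (D : Set ℂ) (z₀ : ℂ), IsOpen D → IsSimplyConnected D → Bornology.IsBounded D → z₀ ∈ D →
    ∃ f g : ℂ → ℂ, DifferentiableOn ℂ f D ∧ DifferentiableOn ℂ g (ball 0 1) ∧
      MapsTo f D (ball 0 1) ∧ MapsTo g (ball 0 1) D ∧
      (∀ z ∈ D, g (f z) = z) ∧ (∀ v ∈ ball (0 : ℂ) 1, f (g v) = v) ∧ f z₀ = 0

/-- With `Γ v = H v / v` (so `Γ (1/w)` is an exterior conformal map), `nrm H v = w Γ'(w)` at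
`w = 1/v`; on the unit circle it is the outer normal of the curve `Γ`. -/
noncomputable def nrm (H : ℂ → ℂ) (v : ℂ) : ℂ := (H v - v * deriv H v) / v

/-- An exterior conformal map `w ↦ H (1/w) w`, defined for `‖w‖ > 1/s`, that takes the unit circle
to a convex curve. -/
structure ExtData (s : ℝ) (H : ℂ → ℂ) : Prop where
  one_lt : 1 < s
  diff : DifferentiableOn ℂ H (ball 0 s)
  zero_ne : H 0 ≠ 0
  inj : ∀ u ∈ ball (0 : ℂ) s, ∀ v ∈ ball (0 : ℂ) s, u * H v = v * H u → u = v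
  nrm_ne : ∀ v : ℂ, ‖v‖ = 1 → nrm H v ≠ 0
  conv : ∀ u v : ℂ, ‖u‖ = 1 → ‖v‖ = 1 →
    0 ≤ ((H v / v - H u / u) * (starRingEnd ℂ) (nrm H v)).re

/-- Existence of convex analytic level curves hugging a convex body
(proved in `R132/Ext.lean` from `RMT`). -/
def ExtExists : Prop :=
  ∀ (Ω V : Set ℂ), IsOpen Ω → Bornology.IsBounded Ω → Convex ℝ Ω → Ω.Nonempty →
    IsOpen V → closure Ω ⊆ V →
    ∃ (s : ℝ) (H : ℂ → ℂ), ExtData s H ∧ (∀ v : ℂ, ‖v‖ = 1 → H v / v ∈ V) ∧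
      (∀ v ∈ ball (0 : ℂ) s, v ≠ 0 → H v / v ∉ closure Ω) ∧
      ∀ z ∈ closure Ω, ∀ v : ℂ, ‖v‖ = 1 → 0 ≤ ((H v / v - z) * (starRingEnd ℂ) (nrm H v)).re

end Crest.Agent.R132
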