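import Crest.Agent.R132.Rep

/-!
# Row 132: averages over the unit circle
-/

set_option autoImplicit false

namespace Crest.Agent.R132

open Polynomial Metric Set Filter Topology ComplexConjugate

/-- Continuity on the unit circle. -/
abbrev CS (f : ℂ → ℂ) : Prop := ContinuousOn f (sphere 0 1)

/-- Average over the unit circle. -/
noncomputable def av (f : ℂ → ℂ) : ℂ := Real.circleAverage f 0 1

/-- `f` is continuous on the unit circle with average `a`. -/
def HasAv (f : ℂ → ℂ) (a : ℂ) : Prop := CS f ∧ av f = a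

variable {f g : ℂ → ℂ} {a b : ℂ} {s : ℝ}

theorem CS.conj (hf : CS f) : CS fun v => conj (f v) :=
  Complex.continuous_conj.comp_continuousOn hf

theorem CS.hasAv (hf : CS f) : HasAv f (av f) := ⟨hf, rfl⟩

theorem CS.integrable (hf : CS f) : CircleIntegrable f 0 1 :=
  ContinuousOn.circleIntegrable zero_le_one hf

theorem CS.congr (hf : CS f) (h : ∀ v : ℂ, ‖v‖ = 1 → g v = f v) : CS g :=
  ContinuousOn.congr hf fun v hv => h v (by simpa using hv)

theorem sphere_subset_ball_of_one_lt (hs : 1 < s) : sphere (0 : ℂ) 1 ⊆ ball 0 s :=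
  sphere_subset_closedBall.trans (closedBall_subset_ball hs)

theorem mem_ball_of_norm_one (hs : 1 < s) {v : ℂ} (hv : ‖v‖ = 1) : v ∈ ball (0 : ℂ) s := by
  simp [hv, hs]

theorem CS.of_holo (hs : 1 < s) (hf : DifferentiableOn ℂ f (ball 0 s)) : CS f :=
  hf.continuousOn.mono (sphere_subset_ball_of_one_lt hs)

theorem HasAv.unique (h₁ : HasAv f a) (h₂ : HasAv f b) : a = b := h₁.2.symm.trans h₂.2

theorem HasAv.congr (h : HasAv f a) (hfg : ∀ v : ℂ, ‖v‖ = 1 → g v = f v) : HasAv g a :=
  ⟨h.1.congr hfg, by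
    rw [← h.2]
    exact Real.circleAverage_congr_sphere fun v hv => hfg v (by simpa using hv)⟩

theorem HasAv.of_eq (h : HasAv f a) (hab : a = b) : HasAv f b := hab ▸ h

theorem HasAv.eq_of_ne (h₁ : HasAv f a) (h₂ : HasAv g b) (u : ℂ)
    (hfg : ∀ v : ℂ, ‖v‖ = 1 → v ≠ u → f v = g v) : a = b := by
  rw [← h₁.2, ← h₂.2]
  refine Real.circleAverage_congr_codiscreteWithin ?_ one_ne_zero
  filter_upwards [self_mem_codiscreteWithin (sphere (0 : ℂ) |1|),
    compl_singleton_mem_codiscreteWithin u] with v hv hvu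
  exact hfg v (by simpa using hv) hvu

theorem HasAv.const (a : ℂ) : HasAv (fun _ => a) a :=
  ⟨continuousOn_const, Real.circleAverage_const _ _ _⟩

theorem HasAv.add (h₁ : HasAv f a) (h₂ : HasAv g b) : HasAv (fun v => f v + g v) (a + b) :=
  ⟨h₁.1.add h₂.1, by
    rw [← h₁.2, ← h₂.2]; exact Real.circleAverage_fun_add h₁.1.integrable h₂.1.integrable⟩

theorem HasAv.sub (h₁ : HasAv f a) (h₂ : HasAv g b) : HasAv (fun v => f v - g v) (a - b) :=
  ⟨h₁.1.sub h₂.1, by
    rw [← h₁.2, ← h₂.2]; exact Real.circleAverage_fun_sub h₁.1.integrable h₂.1.integrable⟩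

theorem HasAv.const_mul (h : HasAv f a) (c : ℂ) : HasAv (fun v => c * f v) (c * a) :=
  ⟨continuousOn_const.mul h.1, by
    rw [← h.2]; exact Real.circleAverage_fun_smul (a := c) (f := f)⟩

theorem HasAv.conj (h : HasAv f a) : HasAv (fun v => conj (f v)) (conj a) :=
  ⟨h.1.conj, by
    rw [← h.2]
    exact (Complex.conjCLE : ℂ →L[ℝ] ℂ).circleAverage_comp_comm h.1.integrable⟩

theorem HasAv.sum {ι : Type*} (t : Finset ι) {f : ι → ℂ → ℂ} {a : ι → ℂ}
    (h : ∀ i ∈ t, HasAv (f i) (a i)) : HasAv (fun v => ∑ i ∈ t, f i v) (∑ i ∈ t, a i) := by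
  classical
  induction t using Finset.induction_on with
  | empty => simpa using HasAv.const 0
  | insert i t hi ih =>
    simp only [Finset.sum_insert hi]
    exact (h i (Finset.mem_insert_self _ _)).add
      (ih fun j hj => h j (Finset.mem_insert_of_mem hj))

theorem HasAv.re_le (h₁ : HasAv f a) (h₂ : HasAv g b)
    (hfg : ∀ v : ℂ, ‖v‖ = 1 → (f v).re ≤ (g v).re) : a.re ≤ b.re := by
  have e : ∀ {f : ℂ → ℂ}, CS f → (av f).re = Real.circleAverage (fun v => (f v).re) 0 1 :=
    fun hf => (Complex.reCLM.circleAverage_comp_comm hf.integrable).symm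
  rw [← h₁.2, ← h₂.2, e h₁.1, e h₂.1]
  refine Real.circleAverage_mono ?_ ?_ fun v hv => hfg v (by simpa using hv)
  · exact ContinuousOn.circleIntegrable zero_le_one
      (Complex.continuous_re.comp_continuousOn h₁.1)
  · exact ContinuousOn.circleIntegrable zero_le_one
      (Complex.continuous_re.comp_continuousOn h₂.1)

theorem HasAv.re_nonneg (h : HasAv f a) (hf : ∀ v : ℂ, ‖v‖ = 1 → 0 ≤ (f v).re) : 0 ≤ a.re := by
  simpa using (HasAv.const 0).re_le h (by simpa using hf)

/-- Mean value property. -/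
theorem HasAv.holo (hs : 1 < s) (hf : DifferentiableOn ℂ f (ball 0 s)) : HasAv f (f 0) :=
  ⟨CS.of_holo hs hf, by
    apply DiffContOnCl.circleAverage
    refine DifferentiableOn.diffContOnCl (hf.mono ?_)
    rw [abs_one, closure_ball _ one_ne_zero]
    exact closedBall_subset_ball hs⟩

theorem nonneg_of_ne {φ : ℂ → ℝ} (hφ : ContinuousOn φ (sphere 0 1)) (u : ℂ)
    (h : ∀ v : ℂ, ‖v‖ = 1 → v ≠ u → 0 ≤ φ v) (v : ℂ) (hv : ‖v‖ = 1) : 0 ≤ φ v := by
  by_cases hvu : v = u
  swap
  · exact h v hv hvu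
  subst hvu
  have hv0 : v ≠ 0 := by rintro rfl; simp at hv
  have hc : Continuous fun θ : ℝ => φ (v * Complex.exp (θ * Complex.I)) := by
    refine hφ.comp_continuous (by fun_prop) fun θ => ?_
    simp [hv, Complex.norm_exp_ofReal_mul_I]
  have ht : Tendsto (fun θ : ℝ => φ (v * Complex.exp (θ * Complex.I))) (𝓝[>] 0) (𝓝 (φ v)) := by
    have := (hc.tendsto 0).mono_left (nhdsWithin_le_nhds (s := Ioi 0))
    simpa using this
  refine ge_of_tendsto ht ?_
  filter_upwards [Ioo_mem_nhdsGT (show (0 : ℝ) < 1 by norm_num)] with θ hθ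
  refine h _ (by simp [hv, Complex.norm_exp_ofReal_mul_I]) fun he => ?_
  have h1 : Complex.exp (θ * Complex.I) = 1 := by
    simpa [hv0] using he
  have h2 := congrArg Complex.im h1
  simp only [Complex.exp_ofReal_mul_I_im, Complex.one_im] at h2
  have := Real.sin_pos_of_pos_of_lt_pi hθ.1 (hθ.2.trans (by linarith [Real.pi_gt_three]))
  exact this.ne' h2

section curve

variable {H : ℂ → ℂ}

theorem ExtData.hasDerivAt (hH : ExtData s H) {v : ℂ} (hv : v ∈ ball (0 : ℂ) s) :
    HasDerivAt H (deriv H v) v :=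
  (hH.diff.differentiableAt (isOpen_ball.mem_nhds hv)).hasDerivAt

theorem ExtData.diff_deriv (hH : ExtData s H) : DifferentiableOn ℂ (deriv H) (ball 0 s) :=
  hH.diff.deriv isOpen_ball

theorem ExtData.cs_gamma (hH : ExtData s H) : CS fun v => H v / v :=
  (CS.of_holo hH.one_lt hH.diff).div continuousOn_id fun v hv h => by simp [h] at hv

theorem ExtData.cs_nrm (hH : ExtData s H) : CS (nrm H) :=
  ((CS.of_holo hH.one_lt hH.diff).sub
    (continuousOn_id.mul (CS.of_holo hH.one_lt hH.diff_deriv))).div continuousOn_id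
      fun v hv h => by simp [h] at hv

/-- Cauchy's theorem along the curve `Γ v = H v / v`. -/
theorem ExtData.hasAv_nrm (hH : ExtData s H) {V : Set ℂ} (hVo : IsOpen V) (hVc : Convex ℝ V)
    (hΓ : ∀ v : ℂ, ‖v‖ = 1 → H v / v ∈ V) {h : ℂ → ℂ} (hh : DifferentiableOn ℂ h V) :
    HasAv (fun v => h (H v / v) * nrm H v) 0 := by
  have hcs : CS fun v => h (H v / v) * nrm H v :=
    (hh.continuousOn.comp hH.cs_gamma fun v hv => hΓ v (by simpa using hv)).mul hH.cs_nrm
  refine ⟨hcs, ?_⟩
  have hn : ∀ θ : ℝ, ‖circleMap 0 1 θ‖ = 1 := fun θ => by simp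
  have h0 : ∀ θ : ℝ, circleMap 0 1 θ ≠ 0 := fun θ => circleMap_ne_center one_ne_zero
  have key := integral_closed_curve_eq_zero hVo hVc hh
    (γ := fun θ => H (circleMap 0 1 θ) / circleMap 0 1 θ)
    (γ' := fun θ => -Complex.I * nrm H (circleMap 0 1 θ)) (a := 0) (b := 2 * Real.pi)
    (fun θ => by
      have h1 := hasDerivAt_circleMap 0 1 θ
      have h2 := (hH.hasDerivAt (mem_ball_of_norm_one hH.one_lt (hn θ))).scomp θ h1
      refine (h2.div h1 (h0 θ)).congr_deriv ?_
      have := h0 θ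
      simp only [nrm, Function.comp, smul_eq_mul]
      field_simp
      ring)
    (continuous_const.mul (hH.cs_nrm.comp_continuous (continuous_circleMap 0 1)
      fun θ => by simp))
    (fun θ => hΓ _ (hn θ))
    (by have := periodic_circleMap 0 1 0; rw [zero_add] at this; simp only [this])
  have e : ∀ θ : ℝ, h (H (circleMap 0 1 θ) / circleMap 0 1 θ) *
      (-Complex.I * nrm H (circleMap 0 1 θ)) = -Complex.I *
      (h (H (circleMap 0 1 θ) / circleMap 0 1 θ) * nrm H (circleMap 0 1 θ)) := fun θ => by ring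
  simp only [e, intervalIntegral.integral_const_mul, mul_eq_zero, neg_eq_zero,
    Complex.I_ne_zero, false_or] at key
  simp [av, Real.circleAverage, key]

end curve

end Crest.Agent.R132
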