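import Crest.Agent.R132.Defs

/-!
# Row 132: auxiliary matrix facts
-/

set_option autoImplicit false

namespace Crest.Agent.R132

open Matrix ComplexConjugate
open scoped ComplexOrder MatrixOrder

section holo

variable {ι : Type*} [Fintype ι] [DecidableEq ι] {M : ℂ → Matrix ι ι ℂ} {U : Set ℂ}

theorem diffOn_det (h : ∀ i j, DifferentiableOn ℂ (fun z => M z i j) U) :
    DifferentiableOn ℂ (fun z => (M z).det) U := by
  simp only [Matrix.det_apply']
  refine DifferentiableOn.fun_sum fun σ _ => DifferentiableOn.const_mul ?_ _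
  exact DifferentiableOn.fun_finsetProd fun i _ => h _ _

theorem diffOn_inv (h : ∀ i j, DifferentiableOn ℂ (fun z => M z i j) U)
    (hd : ∀ z ∈ U, (M z).det ≠ 0) (i j : ι) :
    DifferentiableOn ℂ (fun z => (M z)⁻¹ i j) U := by
  simp only [Matrix.inv_def, Matrix.smul_apply, smul_eq_mul, Ring.inverse_eq_inv',
    Matrix.adjugate_apply]
  refine ((diffOn_det h).inv hd).mul (diffOn_det fun k l => ?_)
  by_cases hk : k = j
  · subst hk; simp
  · simpa [Matrix.updateRow_ne hk] using h k l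

end holo

theorem trace_mul_conjTranspose_self {k l : Type*} [Fintype k] [Fintype l] (M : Matrix k l ℂ) :
    (M * Mᴴ).trace = ∑ c, ∑ d, M c d * conj (M c d) := by
  simp [Matrix.trace, Matrix.mul_apply]

theorem re_trace_mul_conjTranspose_nonneg {k l : Type*} [Fintype k] [Fintype l]
    (M : Matrix k l ℂ) : 0 ≤ (M * Mᴴ).trace.re := by
  rw [trace_mul_conjTranspose_self]
  simp only [Complex.re_sum, Complex.mul_conj, Complex.ofReal_re]
  exact Finset.sum_nonneg fun _ _ => Finset.sum_nonneg fun _ _ => Complex.normSq_nonneg _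

/-- Hilbert-Schmidt bound for the off-diagonal block of a positive block matrix. -/
theorem hs_block_le {k l : Type*} [Fintype k] [Fintype l] [DecidableEq k] {μ : Matrix k k ℂ}
    (hμ : μ.PosSemidef) (X Y : Matrix k l ℂ) :
    2 * ((Yᴴ * μ * X) * (Yᴴ * μ * X)ᴴ).trace.re ≤
      ((Xᴴ * μ * X) * (Xᴴ * μ * X)ᴴ).trace.re + ((Yᴴ * μ * Y) * (Yᴴ * μ * Y)ᴴ).trace.re := by
  obtain ⟨B, rfl⟩ := CStarAlgebra.nonneg_iff_eq_star_mul_self.1 hμ.nonneg
  have e : ∀ X Y : Matrix k l ℂ, ((Yᴴ * (star B * B) * X) * (Yᴴ * (star B * B) * X)ᴴ).trace =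
      ((B * X * (B * X)ᴴ) * (B * Y * (B * Y)ᴴ)).trace := by
    intro X Y
    have : (Yᴴ * (star B * B) * X) * (Yᴴ * (star B * B) * X)ᴴ =
        (B * Y)ᴴ * ((B * X * (B * X)ᴴ) * (B * Y)) := by
      simp only [star_eq_conjTranspose, conjTranspose_mul, conjTranspose_conjTranspose,
        Matrix.mul_assoc]
    rw [this, trace_mul_comm, Matrix.mul_assoc]
  rw [e, e, e]
  set P := B * X * (B * X)ᴴ
  set Q := B * Y * (B * Y)ᴴ
  have hP : Pᴴ = P := by simp [P]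
  have hQ : Qᴴ = Q := by simp [Q]
  have := re_trace_mul_conjTranspose_nonneg (P - Q)
  rw [conjTranspose_sub, hP, hQ, Matrix.sub_mul, Matrix.mul_sub, Matrix.mul_sub, trace_sub,
    trace_sub, trace_sub, trace_mul_comm Q P] at this
  simp only [Complex.sub_re] at this
  linarith

theorem exists_singular_pair {ι : Type*} [Fintype ι] [DecidableEq ι] (T : Matrix ι ι ℂ)
    (hT : 0 < ‖toEuclideanCLM (n := ι) (𝕜 := ℂ) T‖) :
    ∃ x y : ι → ℂ, star x ⬝ᵥ x = 1 ∧
      T *ᵥ x = (‖toEuclideanCLM (n := ι) (𝕜 := ℂ) T‖ : ℂ) • y ∧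
      star y ᵥ* T = (‖toEuclideanCLM (n := ι) (𝕜 := ℂ) T‖ : ℂ) • star x := by
  set L := toEuclideanCLM (n := ι) (𝕜 := ℂ) T with hL
  set κ := ‖L‖ with hκ
  have hne : (Metric.sphere (0 : EuclideanSpace ℂ ι) 1).Nonempty := by
    by_contra h
    have : L = 0 := by
      ext1 v
      by_contra hv
      have hv0 : v ≠ 0 := by rintro rfl; simp at hv
      exact h ⟨(‖v‖⁻¹ : ℂ) • v, by simp [norm_smul, hv0]⟩
    simp [hκ, this] at hT
  obtain ⟨x, hx, hmax⟩ := (isCompact_sphere (0 : EuclideanSpace ℂ ι) 1).exists_isMaxOn hne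
    (f := fun v => ‖L v‖) (by fun_prop)
  have hx1 : ‖x‖ = 1 := by simpa using hx
  have hLx : ‖L x‖ = κ := by
    refine le_antisymm (by simpa [hx1] using L.le_opNorm x) ?_
    refine ContinuousLinearMap.opNorm_le_of_unit_norm (norm_nonneg _) fun v hv => ?_
    exact hmax (by simpa using hv)
  have hadj : ContinuousLinearMap.adjoint L (L x) = ((κ : ℂ) ^ 2) • x := by
    have h1 : ‖ContinuousLinearMap.adjoint L (L x)‖ ≤ κ ^ 2 := by
      calc _ ≤ ‖ContinuousLinearMap.adjoint L‖ * ‖L x‖ := ContinuousLinearMap.le_opNorm _ _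
        _ = κ ^ 2 := by rw [LinearIsometryEquiv.norm_map, hLx]; ring
    have h2 : inner ℂ (ContinuousLinearMap.adjoint L (L x)) (((κ : ℂ) ^ 2) • x) =
        ((κ ^ 4 : ℝ) : ℂ) := by
      rw [inner_smul_right, ContinuousLinearMap.adjoint_inner_left, inner_self_eq_norm_sq_to_K,
        hLx]
      simp; ring
    have h3 := norm_sub_sq (𝕜 := ℂ) (ContinuousLinearMap.adjoint L (L x)) (((κ : ℂ) ^ 2) • x)
    rw [h2, norm_smul, hx1] at h3
    simp only [RCLike.re_to_complex, Complex.ofReal_re, norm_pow, Complex.norm_real,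
      Real.norm_eq_abs, sq_abs, mul_one] at h3
    have h4 : ‖ContinuousLinearMap.adjoint L (L x)‖ ^ 2 ≤ (κ ^ 2) ^ 2 := by gcongr
    have h5 : ‖ContinuousLinearMap.adjoint L (L x) - ((κ : ℂ) ^ 2) • x‖ ^ 2 ≤ 0 := by nlinarith
    rw [← sub_eq_zero, ← norm_eq_zero]
    exact pow_eq_zero_iff (two_ne_zero) |>.1 (le_antisymm h5 (by positivity))
  have hκ0 : (κ : ℂ) ≠ 0 := by exact_mod_cast hT.ne'
  refine ⟨x.ofLp, (κ : ℂ)⁻¹ • (T *ᵥ x.ofLp), ?_, ?_, ?_⟩
  · rw [dotProduct_comm, ← EuclideanSpace.inner_eq_star_dotProduct, inner_self_eq_norm_sq_to_K,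
      hx1]; simp
  · rw [smul_smul, mul_inv_cancel₀ hκ0, one_smul]
  · have h1 : Tᴴ *ᵥ (T *ᵥ x.ofLp) = ((κ : ℂ) ^ 2) • x.ofLp := by
      have h2 : ContinuousLinearMap.adjoint L = toEuclideanCLM (n := ι) (𝕜 := ℂ) Tᴴ := by
        rw [hL, ← ContinuousLinearMap.star_eq_adjoint, ← map_star]; rfl
      have := congrArg WithLp.ofLp hadj
      rw [h2] at this
      simpa [hL] using this
    have h2 := congrArg star h1
    rw [star_mulVec, conjTranspose_conjTranspose] at h2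
    rw [star_smul, smul_vecMul, h2, star_smul, smul_smul]
    congr 1
    simp [pow_two, hκ0]

theorem norm_bilin_le {m : Type*} [Fintype m] [DecidableEq m] (F : Matrix m m ℂ) {M : ℝ}
    (hF : ‖toEuclideanCLM (n := m) (𝕜 := ℂ) F‖ ≤ M) (w z : m → ℂ) {α β κ : ℝ}
    (hκ0 : 0 ≤ κ) (hκ : κ * M ≤ α * β) :
    2 * κ * (∑ c, ∑ d, w c * F c d * z d).re ≤
      α ^ 2 * (∑ c, w c * conj (w c)).re + β ^ 2 * (∑ d, z d * conj (z d)).re := by
  set W : EuclideanSpace ℂ m := WithLp.toLp 2 (star w)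
  set Z : EuclideanSpace ℂ m := WithLp.toLp 2 z
  have h1 : ∑ c, ∑ d, w c * F c d * z d = inner ℂ W (toEuclideanCLM (n := m) (𝕜 := ℂ) F Z) := by
    rw [EuclideanSpace.inner_eq_star_dotProduct]
    simp [W, Z, dotProduct, mulVec, Finset.mul_sum, mul_comm, mul_left_comm]
  have h2 : (∑ c, w c * conj (w c)).re = ‖W‖ ^ 2 := by
    rw [EuclideanSpace.norm_sq_eq]
    simp [W, Complex.mul_conj, Complex.normSq_eq_norm_sq, -Complex.ofReal_pow]
  have h3 : (∑ c, z c * conj (z c)).re = ‖Z‖ ^ 2 := by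
    rw [EuclideanSpace.norm_sq_eq]
    simp [Z, Complex.mul_conj, Complex.normSq_eq_norm_sq, -Complex.ofReal_pow]
  have h4 : (inner ℂ W (toEuclideanCLM (n := m) (𝕜 := ℂ) F Z)).re ≤ ‖W‖ * (M * ‖Z‖) :=
    calc _ ≤ ‖inner ℂ W (toEuclideanCLM (n := m) (𝕜 := ℂ) F Z)‖ := Complex.re_le_norm _
      _ ≤ ‖W‖ * ‖toEuclideanCLM (n := m) (𝕜 := ℂ) F Z‖ := norm_inner_le_norm _ _
      _ ≤ ‖W‖ * (M * ‖Z‖) := by
        gcongr
        exact (ContinuousLinearMap.le_opNorm _ _).trans (by gcongr)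
  rw [h1, h2, h3]
  have h5 : 2 * κ * (‖W‖ * (M * ‖Z‖)) ≤ 2 * (α * β) * (‖W‖ * ‖Z‖) := by
    have : 0 ≤ ‖W‖ * ‖Z‖ := by positivity
    nlinarith
  nlinarith [sq_nonneg (α * ‖W‖ - β * ‖Z‖), mul_le_mul_of_nonneg_left h4 (by positivity : 0 ≤ 2 * κ)]

end Crest.Agent.R132
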