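import Crest.Agent.R132.Scalar
import Crest.Agent.R132.MatAux

/-!
# Row 132: the analytic core of the completely bounded Crouzeix inequality
-/

set_option autoImplicit false

namespace Crest.Agent.R132

open Polynomial Metric Set Matrix ComplexConjugate
open Crest.AnalysisR.NumRange
open scoped ComplexOrder

variable {n m : ℕ} {s : ℝ} {H : ℂ → ℂ} {A : Matrix (Fin n) (Fin n) ℂ}

/-- The Cauchy kernel `w Γ'(w) (Γ(w) - A)⁻¹` in the coordinate `v = 1/w`. -/
noncomputable def Phi (H : ℂ → ℂ) (A : Matrix (Fin n) (Fin n) ℂ) (v : ℂ) :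
    Matrix (Fin n) (Fin n) ℂ :=
  (H v - v * deriv H v) • (H v • (1 : Matrix (Fin n) (Fin n) ℂ) - v • A)⁻¹

theorem isUnit_det_of_notMem_spectrum {z : ℂ} (hz : z ∉ spectrum ℂ A) :
    IsUnit (z • (1 : Matrix (Fin n) (Fin n) ℂ) - A).det := by
  rw [spectrum.notMem_iff, Algebra.algebraMap_eq_smul_one] at hz
  exact (Matrix.isUnit_iff_isUnit_det _).1 hz

theorem smul_gamma {v : ℂ} (hv : v ≠ 0) :
    H v • (1 : Matrix (Fin n) (Fin n) ℂ) - v • A = v • ((H v / v) • 1 - A) := by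
  rw [smul_sub, smul_smul, mul_div_cancel₀ _ hv]

section

variable (hH : ExtData s H) (hspec : ∀ v ∈ ball (0 : ℂ) s, v ≠ 0 → H v / v ∉ spectrum ℂ A)
include hH hspec

theorem det_ne_zero_of_extData {v : ℂ} (hv : v ∈ ball (0 : ℂ) s) :
    (H v • (1 : Matrix (Fin n) (Fin n) ℂ) - v • A).det ≠ 0 := by
  by_cases hv0 : v = 0
  · subst hv0; simp [hH.zero_ne]
  · rw [smul_gamma hv0, det_smul]
    exact mul_ne_zero (pow_ne_zero _ hv0) (isUnit_det_of_notMem_spectrum (hspec v hv hv0)).ne_zero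

theorem diffOn_Phi (i j : Fin n) : DifferentiableOn ℂ (fun v => Phi H A v i j) (ball 0 s) := by
  simp only [Phi, Matrix.smul_apply, smul_eq_mul]
  refine (hH.diff.sub (differentiableOn_id.mul hH.diff_deriv)).mul
    (diffOn_inv (M := fun v => H v • (1 : Matrix (Fin n) (Fin n) ℂ) - v • A) (fun k l => ?_)
      (fun v hv => det_ne_zero_of_extData hH hspec hv) i j)
  simp only [Matrix.sub_apply, Matrix.smul_apply, smul_eq_mul]
  exact (hH.diff.mul_const _).sub (differentiableOn_id.mul_const _)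

omit hspec in
theorem Phi_zero : Phi H A 0 = 1 := by
  have := hH.zero_ne
  simp only [Phi, zero_mul, sub_zero, zero_smul]
  rw [Matrix.inv_eq_left_inv (B := (H 0)⁻¹ • 1) (by simp [smul_smul, this]), smul_smul,
    mul_inv_cancel₀ this, one_smul]

theorem Phi_mul {v : ℂ} (hv : ‖v‖ = 1) :
    Phi H A v * ((H v / v) • (1 : Matrix (Fin n) (Fin n) ℂ) - A) = nrm H v • 1 := by
  have hv0 := ne_zero_of_norm_one hv
  have hd := det_ne_zero_of_extData hH hspec (mem_ball_of_norm_one hH.one_lt hv)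
  have e : (H v / v) • (1 : Matrix (Fin n) (Fin n) ℂ) - A =
      v⁻¹ • (H v • (1 : Matrix (Fin n) (Fin n) ℂ) - v • A) := by
    rw [smul_gamma hv0, smul_smul, inv_mul_cancel₀ hv0, one_smul]
  rw [e, Phi, Matrix.smul_mul, Matrix.mul_smul, Matrix.nonsing_inv_mul _ hd.isUnit, smul_smul, nrm,
    div_eq_mul_inv]

theorem Phi_posSemidef
    (hnum : ∀ z ∈ numRange A, ∀ v : ℂ, ‖v‖ = 1 → 0 ≤ ((H v / v - z) * conj (nrm H v)).re)
    {v : ℂ} (hv : ‖v‖ = 1) : (Phi H A v + (Phi H A v)ᴴ).PosSemidef := by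
  have hv0 := ne_zero_of_norm_one hv
  set N := (H v / v) • (1 : Matrix (Fin n) (Fin n) ℂ) - A with hN
  have hNu : IsUnit N.det :=
    isUnit_det_of_notMem_spectrum (hspec v (mem_ball_of_norm_one hH.one_lt hv) hv0)
  have hΦ : Phi H A v = nrm H v • N⁻¹ := by
    have := congrArg (· * N⁻¹) (Phi_mul hH hspec hv)
    simpa [← hN, Matrix.mul_assoc, Matrix.mul_nonsing_inv _ hNu] using this
  have hM : (nrm H v • Nᴴ + conj (nrm H v) • N).PosSemidef := by
    refine PosSemidef.of_dotProduct_mulVec_nonneg ?_ fun y => ?_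
    · simp [IsHermitian, add_comm]
    · have e1 : star y ⬝ᵥ (Nᴴ *ᵥ y) = conj (star y ⬝ᵥ (N *ᵥ y)) := by
        rw [dotProduct_mulVec, ← star_mulVec, dotProduct_comm, star_dotProduct]
        simp [dotProduct_comm]
      rw [add_mulVec, dotProduct_add, smul_mulVec, smul_mulVec, dotProduct_smul, dotProduct_smul,
        e1, smul_eq_mul, smul_eq_mul]
      set a := star y ⬝ᵥ (N *ᵥ y) with ha
      have e2 : nrm H v * conj a + conj (nrm H v) * a = ((2 * (a * conj (nrm H v)).re : ℝ) : ℂ) := by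
        rw [← Complex.add_conj]; simp only [map_mul, Complex.conj_conj]; ring
      rw [e2, Complex.zero_le_real]
      refine mul_nonneg zero_le_two ?_
      by_cases hy : y = 0
      · simp [ha, hy]
      · set Y : EuclideanSpace ℂ (Fin n) := WithLp.toLp 2 y
        have hY : ‖Y‖ ≠ 0 := by simpa [Y] using hy
        have hY' : (‖Y‖ : ℂ) ≠ 0 := by exact_mod_cast hY
        have hyy : star y ⬝ᵥ y = (‖Y‖ : ℂ) ^ 2 := by
          rw [dotProduct_comm]
          exact (EuclideanSpace.inner_eq_star_dotProduct Y Y).symm.trans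
            (inner_self_eq_norm_sq_to_K Y)
        have hz : (‖Y‖ : ℂ)⁻¹ ^ 2 * (star y ⬝ᵥ (A *ᵥ y)) ∈ numRange A := by
          refine ⟨(‖Y‖ : ℂ)⁻¹ • Y, by simp [norm_smul, hY], ?_⟩
          rw [map_smul, inner_smul_left, inner_smul_right, EuclideanSpace.inner_eq_star_dotProduct,
            dotProduct_comm]
          simp [Y, pow_two, mul_assoc]
        have h1 := hnum _ hz v hv
        have e3 : a = ((‖Y‖ ^ 2 : ℝ) : ℂ) *
            (H v / v - (‖Y‖ : ℂ)⁻¹ ^ 2 * (star y ⬝ᵥ (A *ᵥ y))) := by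
          rw [ha, hN, sub_mulVec, dotProduct_sub, smul_mulVec, one_mulVec, dotProduct_smul, hyy,
            smul_eq_mul]
          push_cast
          field_simp
        rw [e3, mul_assoc, Complex.re_ofReal_mul]
        positivity
  have := hM.conjTranspose_mul_mul_same N⁻¹
  convert this using 1
  have e1 : (N⁻¹)ᴴ * Nᴴ = 1 := by
    rw [← conjTranspose_mul, Matrix.mul_nonsing_inv _ hNu, conjTranspose_one]
  rw [hΦ, Matrix.mul_add, Matrix.add_mul, Matrix.mul_smul, Matrix.mul_smul, e1, Matrix.smul_mul,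
    Matrix.smul_mul, Matrix.one_mul, Matrix.mul_assoc, Matrix.mul_nonsing_inv _ hNu,
    Matrix.mul_one, conjTranspose_smul]
  rfl

/-- Cauchy's formula for matrices. -/
theorem hasAv_mul_Phi {V : Set ℂ} (hVo : IsOpen V) (hVc : Convex ℝ V)
    (hΓ : ∀ v : ℂ, ‖v‖ = 1 → H v / v ∈ V) {f : ℂ → ℂ} {q : ℂ[X]} (h : Rep V A f q)
    (i j : Fin n) : HasAv (fun v => f (H v / v) * Phi H A v i j) (aeval A q i j) := by
  obtain ⟨S, hS, hf⟩ := h.exists_resolvent
  have h1 := HasAv.sum Finset.univ fun k _ =>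
    (HasAv.holo hH.one_lt (diffOn_Phi hH hspec i k)).const_mul (aeval A q k j)
  have h2 := hH.hasAv_nrm hVo hVc hΓ (hS i j)
  refine ((h1.add h2).congr fun v hv => ?_).of_eq ?_
  · have e := congrArg (fun M => (Phi H A v * M) i j) (hf _ (hΓ v hv))
    simp only [Matrix.mul_add, ← Matrix.mul_assoc, Phi_mul hH hspec hv, Matrix.mul_smul,
      Matrix.mul_one, Matrix.smul_mul, Matrix.one_mul, Matrix.add_apply, Matrix.smul_apply,
      smul_eq_mul] at e
    rw [e, Matrix.mul_apply, mul_comm (nrm H v)]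
    simp [mul_comm]
  · simp [Phi_zero hH, Matrix.one_apply]

end

/-- A vector of `ℂⁿ ⊗ ℂᵐ` as a matrix. -/
def toMat (x : Fin n × Fin m → ℂ) : Matrix (Fin n) (Fin m) ℂ := Matrix.of fun j d => x (j, d)

theorem dot_matFn (A : Matrix (Fin n) (Fin n) ℂ) (q : Fin m → Fin m → ℂ[X])
    (x y : Fin n × Fin m → ℂ) :
    star y ⬝ᵥ (matFn A q *ᵥ x) = ∑ c, ∑ d, ((toMat y)ᴴ * aeval A (q c d) * toMat x) c d := by
  simp only [dotProduct, mulVec, matFn, toMat, Matrix.mul_apply, Fintype.sum_prod_type,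
    Matrix.of_apply, conjTranspose_apply, Pi.star_apply, Finset.mul_sum, Finset.sum_mul]
  rw [Finset.sum_comm]
  refine Finset.sum_congr rfl fun c _ => ?_
  rw [Finset.sum_comm]
  conv_rhs => rw [Finset.sum_comm]
  refine Finset.sum_congr rfl fun j _ => ?_
  rw [Finset.sum_comm]
  simp only [mul_assoc]

section

variable (hH : ExtData s H) (hspec : ∀ v ∈ ball (0 : ℂ) s, v ≠ 0 → H v / v ∉ spectrum ℂ A)
include hH hspec

theorem diffOn_blk (X Y : Matrix (Fin n) (Fin m) ℂ) (c d : Fin m) :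
    DifferentiableOn ℂ (fun v => (Yᴴ * Phi H A v * X) c d) (ball 0 s) := by
  simp only [Matrix.mul_apply]
  exact DifferentiableOn.fun_sum fun j _ => DifferentiableOn.mul_const
    (DifferentiableOn.fun_sum fun i _ => (diffOn_Phi hH hspec i j).const_mul _) _

theorem hasAv_dot {V : Set ℂ} (hVo : IsOpen V) (hVc : Convex ℝ V)
    (hΓ : ∀ v : ℂ, ‖v‖ = 1 → H v / v ∈ V) {F : ℂ → Matrix (Fin m) (Fin m) ℂ}
    {q : Fin m → Fin m → ℂ[X]} (h : ∀ c d, Rep V A (fun z => F z c d) (q c d))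
    (x y : Fin n × Fin m → ℂ) :
    HasAv (fun v => ∑ c, ∑ d, F (H v / v) c d * ((toMat y)ᴴ * Phi H A v * toMat x) c d)
      (star y ⬝ᵥ (matFn A q *ᵥ x)) := by
  rw [dot_matFn]
  refine HasAv.sum _ fun c _ => HasAv.sum _ fun d _ => ?_
  simp only [Matrix.mul_apply]
  refine (HasAv.sum Finset.univ fun j _ => (HasAv.sum Finset.univ fun i _ =>
    (hasAv_mul_Phi hH hspec hVo hVc hΓ (h c d) i j).const_mul ((toMat y)ᴴ c i)).const_mul
      (toMat x j d)).congr (fun v _ => ?_) |>.of_eq ?_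
  · simp only [Finset.mul_sum, Finset.sum_mul]
    exact Finset.sum_congr rfl fun _ _ => Finset.sum_congr rfl fun _ _ => by ring
  · exact Finset.sum_congr rfl fun _ _ => mul_comm _ _

end

/-- Squared `L²` norm on the circle. -/
noncomputable def N2 (a : ℂ → ℂ) : ℝ := (av fun v => a v * conj (a v)).re

theorem CS.hasAv_sq {a : ℂ → ℂ} (ha : CS a) :
    HasAv (fun v => a v * conj (a v)) (av fun v => a v * conj (a v)) :=
  CS.hasAv (ha.mul ha.conj)

theorem CS.N2_nonneg {a : ℂ → ℂ} (ha : CS a) : 0 ≤ N2 a :=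
  ha.hasAv_sq.re_nonneg fun v _ => by rw [re_mul_conj_self]; positivity

/-- Parseval for `B + Cᴴ` with `B`, `C` holomorphic. -/
theorem hasAv_hs (hs : 1 < s) {B C : ℂ → Matrix (Fin m) (Fin m) ℂ}
    (hB : ∀ c d, DifferentiableOn ℂ (fun v => B v c d) (ball 0 s))
    (hC : ∀ c d, DifferentiableOn ℂ (fun v => C v c d) (ball 0 s)) (h0 : (C 0)ᴴ = B 0) :
    ∃ a : ℂ, HasAv (fun v => ((B v + (C v)ᴴ) * (B v + (C v)ᴴ)ᴴ).trace) a ∧
      a.re = ∑ c, ∑ d, N2 (fun v => B v c d) + ∑ c, ∑ d, N2 (fun v => C v c d) +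
        2 * ∑ c, ∑ d, ‖B 0 c d‖ ^ 2 := by
  have key : ∀ c d, HasAv (fun v => (B v + (C v)ᴴ) c d * conj ((B v + (C v)ᴴ) c d))
      (av (fun v => B v c d * conj (B v c d)) + av (fun v => C v d c * conj (C v d c)) +
        B 0 c d * conj (B 0 c d) + B 0 c d * conj (B 0 c d)) := by
    intro c d
    have h1 := HasAv.holo hs ((hB c d).mul (hC d c))
    have e : C 0 d c = conj (B 0 c d) := by rw [← h0]; simp
    refine (((((CS.of_holo hs (hB c d)).hasAv_sq.add (CS.of_holo hs (hC d c)).hasAv_sq).add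
      h1).add h1.conj).congr fun v _ => ?_).of_eq ?_
    · simp only [Matrix.add_apply, conjTranspose_apply, RCLike.star_def, map_add, map_mul,
        Complex.conj_conj, Pi.mul_apply]
      ring
    · simp only [Pi.mul_apply, e, map_mul, Complex.conj_conj]; ring
  refine ⟨_, (HasAv.sum Finset.univ fun c _ => HasAv.sum Finset.univ fun d _ => key c d).congr
    fun v _ => trace_mul_conjTranspose_self _, ?_⟩
  simp only [Complex.re_sum, Complex.add_re, re_mul_conj_self, Finset.sum_add_distrib, N2]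
  rw [Finset.sum_comm (f := fun c d => (av fun v => C v d c * conj (C v d c)).re)]
  ring

/-- The extremal step: duality against polynomial test matrices. -/
theorem ExtData.extremal (hH : ExtData s H) {P : ℂ → Matrix (Fin m) (Fin m) ℂ}
    (hP : ∀ c d, DifferentiableOn ℂ (fun v => P v c d) (ball 0 s)) {κ b : ℝ}
    (h : ∀ g : Fin m → Fin m → ℂ[X],
      κ ^ 2 * (2 * ∑ c, ∑ d, (av fun v => (g c d).eval (H v / v) * P v c d).re -
        ∑ c, ∑ d, N2 (fun v => (g c d).eval (H v / v))) ≤ b) :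
    κ ^ 2 * ((∑ c, ∑ d, N2 (fun v => P v c d) + ∑ c, ∑ d, ‖P 0 c d‖ ^ 2) / 2) ≤ b := by
  refine le_of_forall_pos_le_add fun ε hε => ?_
  obtain ⟨δ, hδ, h3⟩ : ∃ δ : ℝ, 0 < δ ∧ κ ^ 2 * (m * (m * δ)) ≤ ε := by
    refine ⟨ε / (κ ^ 2 * m ^ 2 + 1), by positivity, ?_⟩
    rw [show κ ^ 2 * (m * (m * (ε / (κ ^ 2 * m ^ 2 + 1)))) =
      ε * (κ ^ 2 * m ^ 2 / (κ ^ 2 * m ^ 2 + 1)) by ring]
    refine mul_le_of_le_one_right hε.le ?_
    rw [div_le_one (by positivity)]; linarith
  choose g hg using fun c d => hH.exists_poly_ge (hP c d) hδ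
  have h1 := Finset.sum_le_sum fun c (_ : c ∈ Finset.univ) =>
    Finset.sum_le_sum fun d (_ : d ∈ Finset.univ) => hg c d
  simp only [Finset.sum_sub_distrib, ← Finset.mul_sum, ← Finset.sum_div, Finset.sum_add_distrib,
    Finset.sum_const, Finset.card_univ, Fintype.card_fin, nsmul_eq_mul] at h1
  have h2 := h g
  have h4 := mul_le_mul_of_nonneg_left h1 (sq_nonneg κ)
  simp only [N2] at h2 ⊢
  linarith

theorem core (hH : ExtData s H) (hspec : ∀ v ∈ ball (0 : ℂ) s, v ≠ 0 → H v / v ∉ spectrum ℂ A)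
    (hnum : ∀ z ∈ numRange A, ∀ v : ℂ, ‖v‖ = 1 → 0 ≤ ((H v / v - z) * conj (nrm H v)).re)
    {V : Set ℂ} (hVo : IsOpen V) (hVc : Convex ℝ V) (hΓ : ∀ v : ℂ, ‖v‖ = 1 → H v / v ∈ V)
    {F : ℂ → Matrix (Fin m) (Fin m) ℂ} {q : Fin m → Fin m → ℂ[X]}
    (hq : ∀ c d, Rep V A (fun z => F z c d) (q c d)) {M : ℝ} (hM0 : 0 ≤ M)
    (hM : ∀ v : ℂ, ‖v‖ = 1 → ‖toEuclideanCLM (n := Fin m) (𝕜 := ℂ) (F (H v / v))‖ ≤ M) :
    ‖toEuclideanCLM (n := Fin n × Fin m) (𝕜 := ℂ) (matFn A q)‖ ≤ 2 * M := by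
  have hs := hH.one_lt
  rcases (norm_nonneg (toEuclideanCLM (n := Fin n × Fin m) (𝕜 := ℂ) (matFn A q))).eq_or_lt with
    h0 | hκ
  · rw [← h0]; positivity
  obtain ⟨x, y, hx, hTx, hTy⟩ := exists_singular_pair _ hκ
  set κ := ‖toEuclideanCLM (n := Fin n × Fin m) (𝕜 := ℂ) (matFn A q)‖
  set B : (Fin n × Fin m → ℂ) → (Fin n × Fin m → ℂ) → ℂ → Matrix (Fin m) (Fin m) ℂ :=
    fun x y v => (toMat y)ᴴ * Phi H A v * toMat x with hB
  have hBd : ∀ x y c d, DifferentiableOn ℂ (fun v => B x y v c d) (ball 0 s) :=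
    fun x y c d => diffOn_blk hH hspec _ _ c d
  have hB0 : ∀ x y, (B y x 0)ᴴ = B x y 0 := fun x y => by simp [hB, Phi_zero hH]
  have hBμ : ∀ x y v, B x y v + (B y x v)ᴴ =
      (toMat y)ᴴ * (Phi H A v + (Phi H A v)ᴴ) * toMat x := fun x y v => by
    simp [hB, Matrix.mul_add, Matrix.add_mul, Matrix.mul_assoc]
  set γ := ∑ c, ∑ d, N2 (fun v => B x y v c d) with hγ
  set Q : (Fin n × Fin m → ℂ) → ℝ := fun x =>
    (∑ c, ∑ d, N2 (fun v => B x x v c d) + ∑ c, ∑ d, ‖B x x 0 c d‖ ^ 2) / 2 with hQ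
  have hN : ∀ x y, 0 ≤ ∑ c, ∑ d, N2 (fun v => B x y v c d) := fun x y =>
    Finset.sum_nonneg fun c _ => Finset.sum_nonneg fun d _ =>
      (CS.of_holo hs (hBd x y c d)).N2_nonneg
  -- positivity of the double layer
  have step1 : γ ≤ 2 * (Q x + Q y) := by
    obtain ⟨a1, h1, e1⟩ := hasAv_hs hs (hBd x y) (hBd y x) (hB0 x y)
    obtain ⟨a2, h2, e2⟩ := hasAv_hs hs (hBd x x) (hBd x x) (hB0 x x)
    obtain ⟨a3, h3, e3⟩ := hasAv_hs hs (hBd y y) (hBd y y) (hB0 y y)
    have := (h1.const_mul 2).re_le (h2.add h3) fun v hv => by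
      have := hs_block_le (Phi_posSemidef hH hspec hnum hv) (toMat x) (toMat y)
      simpa only [hBμ, Complex.add_re, Complex.mul_re, Complex.re_ofNat, Complex.im_ofNat,
        zero_mul, sub_zero] using this
    simp only [Complex.add_re, Complex.mul_re, Complex.re_ofNat, Complex.im_ofNat,
      zero_mul, sub_zero, e1, e2, e3] at this
    have h4 := hN y x
    have h5 : 0 ≤ ∑ c, ∑ d, ‖B x y 0 c d‖ ^ 2 := by positivity
    simp only [hQ]
    linarith
  have hγav : ∃ a, HasAv (fun v => ∑ c, ∑ d, B x y v c d * conj (B x y v c d)) a ∧ a.re = γ :=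
    ⟨_, HasAv.sum Finset.univ fun c _ => HasAv.sum Finset.univ fun d _ =>
      (CS.of_holo hs (hBd x y c d)).hasAv_sq, by simp [hγ, N2]⟩
  obtain ⟨aγ, hγ1, hγ2⟩ := hγav
  have csg : ∀ g : ℂ[X], CS fun v => g.eval (H v / v) := fun g =>
    g.continuous.comp_continuousOn hH.cs_gamma
  -- common part of the two extremal steps
  have common : ∀ (x' : Fin n × Fin m → ℂ) (g : Fin m → Fin m → ℂ[X]) (G : ℂ → ℂ),
      HasAv G (κ * (star x' ⬝ᵥ (matFn A g *ᵥ x'))) →
      (∀ v : ℂ, ‖v‖ = 1 → 2 * κ * (G v).re ≤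
        M ^ 2 * (∑ c, ∑ d, B x y v c d * conj (B x y v c d)).re +
        κ ^ 2 * (∑ c, ∑ d, (g c d).eval (H v / v) * conj ((g c d).eval (H v / v))).re) →
      κ ^ 2 * (2 * ∑ c, ∑ d, (av fun v => (g c d).eval (H v / v) * B x' x' v c d).re -
        ∑ c, ∑ d, N2 (fun v => (g c d).eval (H v / v))) ≤ M ^ 2 * γ := by
    intro x' g G hG hle
    have h1 := hasAv_dot hH hspec hVo hVc hΓ (F := fun z => Matrix.of fun c d => (g c d).eval z)
      (q := g) (fun c d => Rep.poly V A (g c d)) x' x'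
    have h2 := HasAv.sum Finset.univ fun c _ => HasAv.sum Finset.univ fun d _ =>
      CS.hasAv ((csg (g c d)).mul (CS.of_holo hs (hBd x' x' c d)))
    have h3 := h1.unique h2
    have h4 := HasAv.sum Finset.univ fun c _ => HasAv.sum Finset.univ fun d _ =>
      (csg (g c d)).hasAv_sq
    have h5 := (hG.const_mul ((2 * κ : ℝ) : ℂ)).re_le
      ((hγ1.const_mul ((M ^ 2 : ℝ) : ℂ)).add (h4.const_mul ((κ ^ 2 : ℝ) : ℂ))) fun v hv => by
        simpa only [Complex.add_re, Complex.re_ofReal_mul] using hle v hv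
    rw [h3] at h5
    simp only [Complex.add_re, Complex.re_ofReal_mul, hγ2, Complex.re_sum] at h5
    simp only [N2]
    have e : ∀ c d, (av ((fun v => (g c d).eval (H v / v)) * fun v => B x' x' v c d)) =
      av fun v => (g c d).eval (H v / v) * B x' x' v c d := fun _ _ => rfl
    simp only [e] at h5
    linarith
  have step2 : κ ^ 2 * Q x ≤ M ^ 2 * γ := by
    refine hH.extremal (hBd x x) fun g => ?_
    have h1 := hasAv_dot hH hspec hVo hVc hΓ
      (F := fun z => Matrix.of fun c e => ∑ d, F z c d * (g d e).eval z)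
      (q := fun c e => ∑ d, q c d * g d e)
      (fun c e => (Rep.sum Finset.univ fun d _ => (hq c d).mul (Rep.poly V A (g d e))).congr
        fun z _ => Matrix.of_apply _ _ _) x y
    rw [matFn_mul, ← mulVec_mulVec, dotProduct_mulVec, hTy, smul_dotProduct, smul_eq_mul] at h1
    refine common x g _ h1 fun v hv => ?_
    have h2 := Finset.sum_le_sum fun e (_ : e ∈ Finset.univ) =>
      norm_bilin_le (F (H v / v)) (hM v hv) (fun c => B x y v c e)
        (fun d => (g d e).eval (H v / v)) (α := M) (β := κ) hκ.le (mul_comm _ _).le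
    simp only [← Finset.mul_sum, Finset.sum_add_distrib, ← Complex.re_sum] at h2
    rw [Finset.sum_comm (f := fun c d => B x y v c d * conj (B x y v c d)),
      Finset.sum_comm (f := fun c d => (g c d).eval (H v / v) * conj ((g c d).eval (H v / v)))]
    refine le_of_eq_of_le ?_ h2
    congr 2
    rw [Finset.sum_comm]
    simp only [Matrix.of_apply, Finset.sum_mul, hB]
    exact Finset.sum_congr rfl fun _ _ => Finset.sum_congr rfl fun _ _ =>
      Finset.sum_congr rfl fun _ _ => by ring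
  have step3 : κ ^ 2 * Q y ≤ M ^ 2 * γ := by
    refine hH.extremal (hBd y y) fun g => ?_
    have h1 := hasAv_dot hH hspec hVo hVc hΓ
      (F := fun z => Matrix.of fun c e => ∑ d, (g c d).eval z * F z d e)
      (q := fun c e => ∑ d, g c d * q d e)
      (fun c e => (Rep.sum Finset.univ fun d _ => (Rep.poly V A (g c d)).mul (hq d e)).congr
        fun z _ => Matrix.of_apply _ _ _) x y
    rw [matFn_mul, ← mulVec_mulVec, hTx, mulVec_smul, dotProduct_smul, smul_eq_mul] at h1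
    refine common y g _ h1 fun v hv => ?_
    have h2 := Finset.sum_le_sum fun c (_ : c ∈ Finset.univ) =>
      norm_bilin_le (F (H v / v)) (hM v hv) (fun d => (g c d).eval (H v / v))
        (fun e => B x y v c e) (α := κ) (β := M) hκ.le le_rfl
    simp only [← Finset.mul_sum, Finset.sum_add_distrib, ← Complex.re_sum] at h2
    rw [add_comm]
    refine le_of_eq_of_le ?_ h2
    congr 2
    simp only [Matrix.of_apply, Finset.sum_mul, hB]
    exact Finset.sum_congr rfl fun _ _ => Finset.sum_comm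
  have hQy : 0 ≤ Q y := by
    have h5 : 0 ≤ ∑ c, ∑ d, ‖B y y 0 c d‖ ^ 2 := by positivity
    exact div_nonneg (add_nonneg (hN y y) h5) zero_le_two
  have hQx : 0 < Q x := by
    have h1 := hN x x
    have h2 : 0 < ∑ c, ∑ d, ‖B x x 0 c d‖ ^ 2 := by
      refine lt_of_le_of_ne (by positivity) fun h => ?_
      have h3 : ∀ c, B x x 0 c c = 0 := fun c => by
        have h4 := (Finset.sum_eq_zero_iff_of_nonneg (fun _ _ => by positivity)).1 h.symm c
          (Finset.mem_univ _)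
        have h5 := (Finset.sum_eq_zero_iff_of_nonneg (fun _ _ => by positivity)).1 h4 c
          (Finset.mem_univ _)
        simpa using h5
      have h6 : ∑ c, B x x 0 c c = star x ⬝ᵥ x := by
        simp only [hB, Phi_zero hH, Matrix.mul_one]
        simp only [Matrix.mul_apply, toMat, dotProduct,
          Fintype.sum_prod_type, conjTranspose_apply, Matrix.of_apply, Pi.star_apply]
        exact Finset.sum_comm
      simp [h3, hx] at h6
    exact div_pos (add_pos_of_nonneg_of_pos h1 h2) two_pos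
  have h7 : κ ^ 2 * (Q x + Q y) ≤ (2 * M) ^ 2 * (Q x + Q y) := by
    nlinarith [mul_le_mul_of_nonneg_left step1 (sq_nonneg M)]
  have h8 : κ ^ 2 ≤ (2 * M) ^ 2 :=
    le_of_mul_le_mul_right h7 (add_pos_of_pos_of_nonneg hQx hQy)
  exact (pow_le_pow_iff_left₀ hκ.le (by positivity) two_ne_zero).1 h8

end Crest.Agent.R132
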