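import Crest.Agent.R132.Rep

/-!
# Row 132: quadratic-form estimates for the boundary density
-/

set_option autoImplicit false

namespace Crest.Agent.R132

open Matrix Kronecker WithLp
open scoped ComplexOrder MatrixOrder

section
variable {ι κ : Type*} [Fintype ι] [DecidableEq ι] [Fintype κ] [DecidableEq κ]

omit [DecidableEq ι] in
theorem re_star_dot_self (x : ι → ℂ) : (star x ⬝ᵥ x).re = ‖toLp 2 x‖ ^ 2 := by
  rw [dotProduct_comm, ← EuclideanSpace.inner_toLp_toLp, inner_self_eq_norm_sq_to_K]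
  norm_cast

theorem re_qf_le (v : Matrix ι ι ℂ) {M : ℝ} (hv : ‖toEuclideanCLM (n := ι) (𝕜 := ℂ) v‖ ≤ M)
    (x y : ι → ℂ) :
    (star y ⬝ᵥ v *ᵥ x).re ≤ M / 2 * ((star x ⬝ᵥ x).re + (star y ⬝ᵥ y).re) := by
  have hM : 0 ≤ M := (norm_nonneg _).trans hv
  rw [re_star_dot_self, re_star_dot_self, dotProduct_comm, ← EuclideanSpace.inner_toLp_toLp,
    ← toEuclideanCLM_toLp]
  calc _ ≤ ‖inner ℂ (toLp 2 y) (toEuclideanCLM (n := ι) (𝕜 := ℂ) v (toLp 2 x))‖ :=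
        Complex.re_le_norm _
    _ ≤ ‖toLp 2 y‖ * (M * ‖toLp 2 x‖) := (norm_inner_le_norm _ _).trans (by
        gcongr
        exact ContinuousLinearMap.le_of_opNorm_le _ hv _)
    _ ≤ _ := by nlinarith [mul_nonneg hM (sq_nonneg (‖toLp 2 x‖ - ‖toLp 2 y‖))]

omit [DecidableEq κ] in
theorem qf_one_kron (v : Matrix κ κ ℂ) (x y : ι × κ → ℂ) :
    star y ⬝ᵥ ((1 : Matrix ι ι ℂ) ⊗ₖ v) *ᵥ x =
      ∑ k, star (fun c => y (k, c)) ⬝ᵥ v *ᵥ (fun c => x (k, c)) := by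
  simp [dotProduct, mulVec, Fintype.sum_prod_type, one_apply, Finset.sum_ite_eq]

theorem re_qf_kron_le {Λ : Matrix ι ι ℂ} (hΛ : Λ.PosSemidef) (v : Matrix κ κ ℂ) {M : ℝ}
    (hv : ‖toEuclideanCLM (n := κ) (𝕜 := ℂ) v‖ ≤ M) (x y : ι × κ → ℂ) :
    (star y ⬝ᵥ (Λ ⊗ₖ v) *ᵥ x).re ≤ M / 2 * ((star x ⬝ᵥ (Λ ⊗ₖ (1 : Matrix κ κ ℂ)) *ᵥ x).re +
      (star y ⬝ᵥ (Λ ⊗ₖ (1 : Matrix κ κ ℂ)) *ᵥ y).re) := by
  obtain ⟨B, rfl⟩ := CStarAlgebra.nonneg_iff_eq_star_mul_self.mp hΛ.nonneg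
  have key : ∀ (w : Matrix κ κ ℂ) (x y : ι × κ → ℂ), star y ⬝ᵥ ((star B * B) ⊗ₖ w) *ᵥ x =
      ∑ k, star (fun c => ((B ⊗ₖ (1 : Matrix κ κ ℂ)) *ᵥ y) (k, c)) ⬝ᵥ w *ᵥ
        (fun c => ((B ⊗ₖ (1 : Matrix κ κ ℂ)) *ᵥ x) (k, c)) := by
    intro w x y
    rw [← qf_one_kron, star_mulVec, ← dotProduct_mulVec, mulVec_mulVec, mulVec_mulVec,
      conjTranspose_kronecker, ← mul_kronecker_mul, ← mul_kronecker_mul, star_eq_conjTranspose]
    simp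
  rw [key, key, key, Complex.re_sum, Complex.re_sum, Complex.re_sum, ← Finset.sum_add_distrib,
    Finset.mul_sum]
  refine Finset.sum_le_sum fun k _ => ?_
  simpa only [one_mulVec] using re_qf_le v hv _ _

omit [DecidableEq ι] in
theorem qf_integral (K : ℝ → Matrix ι ι ℂ) (hK : ∀ i j, Continuous fun θ => K θ i j)
    (N : Matrix ι ι ℂ) (s : ℂ) (a b : ℝ) (hN : ∀ i j, N i j = s * ∫ θ in a..b, K θ i j)
    (x y : ι → ℂ) : star y ⬝ᵥ N *ᵥ x = s * ∫ θ in a..b, star y ⬝ᵥ K θ *ᵥ x := by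
  simp only [dotProduct, mulVec, hN, Finset.mul_sum]
  rw [intervalIntegral.integral_finsetSum fun i _ => Continuous.intervalIntegrable (by fun_prop) _ _,
    Finset.mul_sum]
  refine Finset.sum_congr rfl fun i _ => ?_
  rw [intervalIntegral.integral_finsetSum fun i _ => Continuous.intervalIntegrable (by fun_prop) _ _,
    Finset.mul_sum]
  refine Finset.sum_congr rfl fun j _ => ?_
  rw [intervalIntegral.integral_const_mul, intervalIntegral.integral_mul_const]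
  ring

theorem norm_le_of_qf (N : Matrix ι ι ℂ) {M : ℝ} (hM : 0 ≤ M)
    (h : ∀ x y : ι → ℂ,
      (star y ⬝ᵥ N *ᵥ x).re ≤ M / 2 * ((star x ⬝ᵥ x).re + (star y ⬝ᵥ y).re)) :
    ‖toEuclideanCLM (n := ι) (𝕜 := ℂ) N‖ ≤ M := by
  refine ContinuousLinearMap.opNorm_le_of_unit_norm hM fun x hx => ?_
  set z := toEuclideanCLM (n := ι) (𝕜 := ℂ) N x with hz
  by_cases h0 : z = 0
  · rwa [h0, norm_zero]
  have h1 := h x.ofLp (((‖z‖ : ℂ))⁻¹ • z).ofLp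
  have h2 := norm_pos_iff.2 h0
  have h4 : ‖((‖z‖ : ℂ))⁻¹ • z‖ = 1 := norm_smul_inv_norm (𝕜 := ℂ) h0
  rw [re_star_dot_self, re_star_dot_self, toLp_ofLp, toLp_ofLp, h4, hx,
    dotProduct_comm, ← ofLp_toEuclideanCLM, ← hz, ← EuclideanSpace.inner_eq_star_dotProduct,
    inner_smul_left, inner_self_eq_norm_sq_to_K] at h1
  have h3 : (starRingEnd ℂ) ((‖z‖ : ℂ))⁻¹ * ((‖z‖ : ℝ) : ℂ) ^ 2 = ((‖z‖ : ℝ) : ℂ) := by
    have : ((‖z‖ : ℝ) : ℂ) ≠ 0 := by exact_mod_cast h2.ne'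
    rw [map_inv₀, Complex.conj_ofReal]
    field_simp
  erw [h3] at h1
  rw [Complex.ofReal_re] at h1
  linarith

theorem norm_le_of_density (Λ : ℝ → Matrix ι ι ℂ) (hΛc : ∀ i j, Continuous fun θ => Λ θ i j)
    (hΛ : ∀ θ, (Λ θ).PosSemidef)
    (h1 : ∀ a b, (2 * Real.pi : ℂ)⁻¹ * (∫ θ in (0 : ℝ)..2 * Real.pi, Λ θ a b) =
      (1 : Matrix ι ι ℂ) a b)
    (v : ℝ → Matrix κ κ ℂ) (hvc : ∀ i j, Continuous fun θ => v θ i j) {M : ℝ}
    (hv : ∀ θ, ‖toEuclideanCLM (n := κ) (𝕜 := ℂ) (v θ)‖ ≤ M) (N : Matrix (ι × κ) (ι × κ) ℂ)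
    (hN : ∀ i j, N i j = (2 * Real.pi : ℂ)⁻¹ *
      ∫ θ in (0 : ℝ)..2 * Real.pi, Λ θ i.1 j.1 * v θ i.2 j.2) :
    ‖toEuclideanCLM (n := ι × κ) (𝕜 := ℂ) N‖ ≤ M := by
  refine norm_le_of_qf N ((norm_nonneg _).trans (hv 0)) fun x y => ?_
  have c1 : ∀ i j, Continuous fun θ => (Λ θ ⊗ₖ v θ) i j := fun i j => (hΛc _ _).mul (hvc _ _)
  have c2 : ∀ i j, Continuous fun θ => (Λ θ ⊗ₖ (1 : Matrix κ κ ℂ)) i j := fun i j =>
    (hΛc _ _).mul continuous_const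
  have e1 := qf_integral _ c1 N _ _ _ hN x y
  have e2 := qf_integral _ c2 1 (2 * Real.pi : ℂ)⁻¹ 0 (2 * Real.pi) (fun i j => by
    simp only [kroneckerMap_apply]
    rw [intervalIntegral.integral_mul_const, ← mul_assoc, h1, ← one_kronecker_one]
    rfl)
  simp only [one_mulVec] at e2
  have c3 : ∀ (K : ℝ → Matrix (ι × κ) (ι × κ) ℂ), (∀ i j, Continuous fun θ => K θ i j) →
      ∀ x y : ι × κ → ℂ, Continuous fun θ => star y ⬝ᵥ K θ *ᵥ x := by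
    intro K hK x y
    simp only [dotProduct, mulVec]
    fun_prop
  have e3 : ∀ F : ℝ → ℂ, Continuous F →
      ((2 * Real.pi : ℂ)⁻¹ * ∫ θ in (0 : ℝ)..2 * Real.pi, F θ).re =
        (2 * Real.pi)⁻¹ * ∫ θ in (0 : ℝ)..2 * Real.pi, (F θ).re := by
    intro F hF
    rw [show (2 * Real.pi : ℂ)⁻¹ = ((2 * Real.pi)⁻¹ : ℝ) by push_cast; rfl, Complex.re_ofReal_mul]
    congr 1
    exact (Complex.reCLM.intervalIntegral_comp_comm (hF.intervalIntegrable _ _)).symm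
  have i1 := (Complex.continuous_re.comp (c3 _ c1 x y)).intervalIntegrable
    (μ := MeasureTheory.volume) 0 (2 * Real.pi)
  have i2 := (Complex.continuous_re.comp (c3 _ c2 x x)).intervalIntegrable
    (μ := MeasureTheory.volume) 0 (2 * Real.pi)
  have i3 := (Complex.continuous_re.comp (c3 _ c2 y y)).intervalIntegrable
    (μ := MeasureTheory.volume) 0 (2 * Real.pi)
  simp only [Function.comp_def] at i1 i2 i3
  rw [e1, e2, e2, e3 _ (c3 _ c1 x y), e3 _ (c3 _ c2 x x), e3 _ (c3 _ c2 y y), ← mul_add,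
    mul_left_comm, ← intervalIntegral.integral_add i2 i3,
    ← intervalIntegral.integral_const_mul (M / 2)]
  exact mul_le_mul_of_nonneg_left (intervalIntegral.integral_mono_on Real.two_pi_pos.le i1
    ((i2.add i3).const_mul _) fun θ _ => re_qf_kron_le (hΛ θ) _ (hv θ) x y)
    (inv_nonneg.2 Real.two_pi_pos.le)

theorem norm_le_of_conj {S H : Matrix ι ι ℂ} {κsq : ℝ} (hS : S.IsHermitian) (hSH : S * S = H)
    (h1 : (H - 1).PosSemidef) (h2 : ((κsq : ℂ) • (1 : Matrix ι ι ℂ) - H).PosSemidef)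
    (N N' : Matrix (ι × κ) (ι × κ) ℂ)
    (hN : (S ⊗ₖ (1 : Matrix κ κ ℂ)) * N = N' * (S ⊗ₖ (1 : Matrix κ κ ℂ))) {M : ℝ}
    (hM : ‖toEuclideanCLM (n := ι × κ) (𝕜 := ℂ) N'‖ ≤ M) :
    ‖toEuclideanCLM (n := ι × κ) (𝕜 := ℂ) N‖ ≤ Real.sqrt κsq * M := by
  have hM0 : 0 ≤ M := (norm_nonneg _).trans hM
  have key : ∀ x : ι × κ → ℂ, ‖toLp 2 ((S ⊗ₖ (1 : Matrix κ κ ℂ)) *ᵥ x)‖ ^ 2 =
      (star x ⬝ᵥ (H ⊗ₖ (1 : Matrix κ κ ℂ)) *ᵥ x).re := by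
    intro x
    rw [← re_star_dot_self, star_mulVec, ← dotProduct_mulVec, mulVec_mulVec,
      conjTranspose_kronecker, ← mul_kronecker_mul, hS.eq, hSH]
    simp
  have k1 : ∀ x : ι × κ → ℂ, ‖toLp 2 x‖ ≤ ‖toLp 2 ((S ⊗ₖ (1 : Matrix κ κ ℂ)) *ᵥ x)‖ := by
    intro x
    refine le_of_sq_le_sq ?_ (norm_nonneg _)
    have := (h1.kronecker (PosSemidef.one (n := κ))).re_dotProduct_nonneg x
    rw [sub_eq_add_neg, add_kronecker, add_mulVec, dotProduct_add, ← neg_one_smul ℂ,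
      smul_kronecker, one_kronecker_one, smul_mulVec, one_mulVec, dotProduct_smul] at this
    rw [key, ← re_star_dot_self]
    simpa using this
  have k2 : ∀ x : ι × κ → ℂ,
      ‖toLp 2 ((S ⊗ₖ (1 : Matrix κ κ ℂ)) *ᵥ x)‖ ≤ Real.sqrt κsq * ‖toLp 2 x‖ := by
    intro x
    have := (h2.kronecker (PosSemidef.one (n := κ))).re_dotProduct_nonneg x
    rw [sub_eq_add_neg, add_kronecker, add_mulVec, dotProduct_add, ← neg_one_smul ℂ H,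
      smul_kronecker, smul_kronecker, one_kronecker_one, smul_mulVec, smul_mulVec, one_mulVec,
      dotProduct_smul, dotProduct_smul] at this
    have h3 : ‖toLp 2 ((S ⊗ₖ (1 : Matrix κ κ ℂ)) *ᵥ x)‖ ^ 2 ≤ κsq * ‖toLp 2 x‖ ^ 2 := by
      rw [key, ← re_star_dot_self]
      simpa using this
    refine (Real.le_sqrt_of_sq_le h3).trans_eq ?_
    rw [Real.sqrt_mul' _ (sq_nonneg _), Real.sqrt_sq (norm_nonneg _)]
  refine ContinuousLinearMap.opNorm_le_bound _ (by positivity) fun x => ?_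
  calc _ = ‖toLp 2 (N *ᵥ x.ofLp)‖ := rfl
    _ ≤ _ := k1 _
    _ = ‖toEuclideanCLM (n := ι × κ) (𝕜 := ℂ) N'
        (toLp 2 ((S ⊗ₖ (1 : Matrix κ κ ℂ)) *ᵥ x.ofLp))‖ := by
      rw [toEuclideanCLM_toLp, mulVec_mulVec, mulVec_mulVec, hN]
    _ ≤ M * ‖toLp 2 ((S ⊗ₖ (1 : Matrix κ κ ℂ)) *ᵥ x.ofLp)‖ :=
      ContinuousLinearMap.le_of_opNorm_le _ hM _
    _ ≤ M * (Real.sqrt κsq * ‖toLp 2 x.ofLp‖) := by gcongr; exact k2 _
    _ = _ := by rw [toLp_ofLp]; ring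

end

end Crest.Agent.R132
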