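import Crest.Agent.R132.Dens1

/-!
# Row 132: the Poisson kernel of a contraction along a parametrised unit circle
-/

set_option autoImplicit false

namespace Crest.Agent.R132

open Matrix Metric Set Filter Topology Polynomial
open scoped ComplexOrder

variable {n : ℕ}

theorem differentiable_det {M : ℂ → Matrix (Fin n) (Fin n) ℂ}
    (hM : ∀ i j, Differentiable ℂ fun u => M u i j) : Differentiable ℂ fun u => (M u).det := by
  simp only [det_apply']
  fun_prop

theorem differentiableOn_inv_entry {M : ℂ → Matrix (Fin n) (Fin n) ℂ} {U : Set ℂ}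
    (hM : ∀ i j, Differentiable ℂ fun u => M u i j) (h : ∀ u ∈ U, (M u).det ≠ 0) (i j : Fin n) :
    DifferentiableOn ℂ (fun u => (M u)⁻¹ i j) U := by
  simp only [inv_def, Ring.inverse_eq_inv', Matrix.smul_apply, smul_eq_mul, adjugate_apply]
  refine ((differentiable_det hM).differentiableOn.inv h).mul
    (differentiable_det fun a b => ?_).differentiableOn
  by_cases ha : a = j
  · subst ha; simp
  · simpa [updateRow_ne ha] using hM a b

theorem det_one_sub_ne_zero {T : Matrix (Fin n) (Fin n) ℂ} (hT : spectrum ℂ T ⊆ ball 0 1) {u : ℂ}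
    (hu : ‖u‖ ≤ 1) : (1 - u • T).det ≠ 0 := by
  by_cases h0 : u = 0
  · simp [h0]
  have h1 : u⁻¹ ∉ spectrum ℂ T := fun h => by
    have := mem_ball_zero_iff.1 (hT h)
    rw [norm_inv, inv_lt_one₀ (norm_pos_iff.2 h0)] at this
    linarith
  rw [spectrum.notMem_iff, isUnit_iff_isUnit_det, isUnit_iff_ne_zero,
    Algebra.algebraMap_eq_smul_one] at h1
  rw [show 1 - u • T = u • (u⁻¹ • (1 : Matrix (Fin n) (Fin n) ℂ) - T) by
    rw [smul_sub, smul_smul, mul_inv_cancel₀ h0, one_smul], det_smul]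
  exact mul_ne_zero (pow_ne_zero _ h0) h1

theorem exists_ball_subset {O : Set ℂ} (hO : IsOpen O) (h : closedBall 0 1 ⊆ O) :
    ∃ R > 1, ball (0 : ℂ) R ⊆ O := by
  obtain ⟨δ, hδ, h1⟩ := (isCompact_closedBall (0 : ℂ) 1).exists_thickening_subset_open hO h
  rw [thickening_closedBall hδ zero_le_one] at h1
  exact ⟨δ + 1, by linarith, h1⟩

/-- The operator Poisson kernel. -/
noncomputable def poiss (T : Matrix (Fin n) (Fin n) ℂ) (ω : ℂ) : Matrix (Fin n) (Fin n) ℂ :=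
  (1 - ω⁻¹ • T)⁻¹ + (1 - ω • Tᴴ)⁻¹ - 1

theorem conjTranspose_one_sub {T : Matrix (Fin n) (Fin n) ℂ} {ω : ℂ} (hω : ‖ω‖ = 1) :
    (1 - ω⁻¹ • T)ᴴ = 1 - ω • Tᴴ := by
  rw [conjTranspose_sub, conjTranspose_one, conjTranspose_smul, Complex.inv_eq_conj hω]
  simp

theorem det_one_sub_ne_zero' {T : Matrix (Fin n) (Fin n) ℂ} (hT : spectrum ℂ T ⊆ ball 0 1) {u : ℂ}
    (hu : ‖u‖ ≤ 1) : (1 - u • Tᴴ).det ≠ 0 := by
  have := det_one_sub_ne_zero hT (u := star u) (by simpa using hu)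
  rw [show 1 - u • Tᴴ = (1 - star u • T)ᴴ by simp, det_conjTranspose]
  exact star_ne_zero.2 this

theorem poiss_posSemidef {T : Matrix (Fin n) (Fin n) ℂ} (hT : spectrum ℂ T ⊆ ball 0 1)
    (hc : (1 - Tᴴ * T).PosSemidef) {ω : ℂ} (hω : ‖ω‖ = 1) : (poiss T ω).PosSemidef := by
  have hω0 : ω ≠ 0 := by rintro rfl; simp at hω
  have h1 := isUnit_iff_ne_zero.2 (det_one_sub_ne_zero hT (u := ω⁻¹) (by simp [hω]))
  have h2 := isUnit_iff_ne_zero.2 (det_one_sub_ne_zero' hT (u := ω) hω.le)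
  have := hc.conjTranspose_mul_mul_same (1 - ω⁻¹ • T)⁻¹
  convert this using 1
  rw [conjTranspose_nonsing_inv, conjTranspose_one_sub hω, poiss,
    show 1 - Tᴴ * T = (1 - ω • Tᴴ) + (1 - ω⁻¹ • T) - (1 - ω • Tᴴ) * (1 - ω⁻¹ • T) by
      simp only [Matrix.sub_mul, Matrix.mul_sub, Matrix.one_mul, Matrix.mul_one, Matrix.smul_mul,
        Matrix.mul_smul, smul_smul, inv_mul_cancel₀ hω0, one_smul, smul_sub]
      abel]
  generalize (1 - ω • Tᴴ) = B' at *
  generalize (1 - ω⁻¹ • T) = B at *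
  simp only [Matrix.mul_sub, Matrix.mul_add, Matrix.sub_mul, Matrix.add_mul, ← Matrix.mul_assoc,
    nonsing_inv_mul _ h2, Matrix.one_mul, mul_nonsing_inv _ h1]
  rw [Matrix.mul_assoc, mul_nonsing_inv _ h1, Matrix.mul_one]

theorem diff_res (T : Matrix (Fin n) (Fin n) ℂ) (i j : Fin n) :
    Differentiable ℂ fun u : ℂ => (1 - u • T) i j := by
  simp only [Matrix.sub_apply, Matrix.smul_apply, smul_eq_mul]
  fun_prop

theorem continuous_poiss {T : Matrix (Fin n) (Fin n) ℂ} (hT : spectrum ℂ T ⊆ ball 0 1)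
    {ω : ℝ → ℂ} (hω : Continuous ω) (h1 : ∀ θ, ‖ω θ‖ = 1) (i j : Fin n) :
    Continuous fun θ => poiss T (ω θ) i j := by
  have hω0 : ∀ θ, ω θ ≠ 0 := fun θ h => by simpa [h] using h1 θ
  simp only [poiss, Matrix.sub_apply, Matrix.add_apply]
  refine Continuous.sub (Continuous.add ?_ ?_) continuous_const
  · exact (differentiableOn_inv_entry (U := closedBall 0 1) (diff_res T)
      (fun u hu => det_one_sub_ne_zero hT (mem_closedBall_zero_iff.1 hu)) i
        j).continuousOn.comp_continuous (hω.inv₀ hω0) fun θ => by simp [h1]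
  · exact (differentiableOn_inv_entry (U := closedBall 0 1) (diff_res Tᴴ)
      (fun u hu => det_one_sub_ne_zero' hT (mem_closedBall_zero_iff.1 hu)) i
        j).continuousOn.comp_continuous hω fun θ => by simp [h1]

theorem poiss_integral {T : Matrix (Fin n) (Fin n) ℂ} (hT : spectrum ℂ T ⊆ ball 0 1)
    {ω : ℝ → ℂ} {c : ℝ → ℝ} {a b : ℝ} (hω : ∀ θ, HasDerivAt ω (Complex.I * c θ * ω θ) θ)
    (hc : Continuous c) (h1 : ∀ θ, ‖ω θ‖ = 1) (hab : ω a = ω b) {R : ℝ} (hR : 1 < R)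
    {w : ℂ → ℂ} {r : ℂ[X]} (hw : Rep (ball 0 R) T w r) (i j : Fin n) :
    ∫ θ in a..b, ((c θ : ℂ) • poiss T (ω θ)) i j * w (ω θ) =
      (∫ θ in a..b, c θ : ℝ) * aeval T r i j := by
  have hω0 : ∀ θ, ω θ ≠ 0 := fun θ h => by simpa [h] using h1 θ
  have hωc : Continuous ω := continuous_iff_continuousAt.2 fun θ => (hω θ).continuousAt
  have hcc : Continuous fun θ => (c θ : ℂ) := Complex.continuous_ofReal.comp hc
  obtain ⟨R', hR', hsub⟩ := exists_ball_subset
    (O := ball 0 R ∩ ({u | (1 - u • T).det ≠ 0} ∩ {u | (1 - u • Tᴴ).det ≠ 0}))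
    (isOpen_ball.inter ((isOpen_ne_fun (differentiable_det (diff_res T)).continuous
      continuous_const).inter (isOpen_ne_fun (differentiable_det (diff_res Tᴴ)).continuous
        continuous_const)))
    fun u hu => ⟨closedBall_subset_ball hR hu, det_one_sub_ne_zero hT (mem_closedBall_zero_iff.1 hu),
      det_one_sub_ne_zero' hT (mem_closedBall_zero_iff.1 hu)⟩
  obtain ⟨S, hS, hwS⟩ := hw.exists_resolvent
  have hm1 : ∀ θ, ω θ ∈ ball (0 : ℂ) R' := fun θ => mem_ball_zero_iff.2 (by rwa [h1])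
  have hm2 : ∀ θ, (ω θ)⁻¹ ∈ ball (0 : ℂ) R' := fun θ => mem_ball_zero_iff.2 (by simpa [h1])
  let F₁ : ℂ → ℂ := fun u => S u i j + w u * (Tᴴ * (1 - u • Tᴴ)⁻¹) i j
  let F₂ : ℂ → ℂ := fun u => (T * (1 - u • T)⁻¹ * aeval T r) i j
  have hF₁ : DifferentiableOn ℂ F₁ (ball 0 R') := by
    refine ((hS i j).mono fun u hu => (hsub hu).1).add
      ((hw.differentiableOn.mono fun u hu => (hsub hu).1).mul ?_)
    simp only [mul_apply]
    exact DifferentiableOn.fun_sum fun k _ => (differentiableOn_inv_entry (diff_res Tᴴ)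
      (fun u hu => (hsub hu).2.2) k j).const_mul _
  have hF₂ : DifferentiableOn ℂ F₂ (ball 0 R') := by
    simp only [F₂, mul_apply]
    exact DifferentiableOn.fun_sum fun k _ => (DifferentiableOn.fun_sum fun l _ =>
      (differentiableOn_inv_entry (diff_res T) (fun u hu => (hsub hu).2.1) l k).const_mul
        _).mul_const _
  have I1 := integral_closed_curve_eq_zero isOpen_ball (convex_ball _ _) hF₁ hω (by fun_prop) hm1 hab
  have hω' : ∀ θ, HasDerivAt (fun θ => (ω θ)⁻¹) (-(Complex.I * c θ * (ω θ)⁻¹)) θ := fun θ => by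
    refine ((hω θ).fun_inv (hω0 θ)).congr_deriv ?_
    have := hω0 θ
    field_simp
  have hωi := hωc.inv₀ hω0
  have I2 := integral_closed_curve_eq_zero isOpen_ball (convex_ball _ _) hF₂ hω' (by fun_prop) hm2
    (a := a) (b := b) (by rw [hab])
  have c1 : Continuous fun θ => F₁ (ω θ) := hF₁.continuousOn.comp_continuous hωc hm1
  have c2 : Continuous fun θ => F₂ (ω θ)⁻¹ := hF₂.continuousOn.comp_continuous hωi hm2
  have key : ∀ θ, ((c θ : ℂ) • poiss T (ω θ)) i j * w (ω θ) =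
      (c θ : ℂ) * aeval T r i j + -Complex.I * (F₁ (ω θ) * (Complex.I * c θ * ω θ)) +
        Complex.I * (F₂ (ω θ)⁻¹ * -(Complex.I * c θ * (ω θ)⁻¹)) := by
    intro θ
    have u1 := isUnit_iff_ne_zero.2 (hsub (hm2 θ)).2.1
    have u2 := isUnit_iff_ne_zero.2 (hsub (hm1 θ)).2.2
    have e1 : (1 - ω θ • Tᴴ)⁻¹ - 1 = ω θ • (Tᴴ * (1 - ω θ • Tᴴ)⁻¹) := by
      have := mul_nonsing_inv _ u2
      rw [Matrix.sub_mul, Matrix.one_mul, Matrix.smul_mul] at this
      exact sub_eq_of_eq_add' (eq_add_of_sub_eq this)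
    have e2 : (1 - (ω θ)⁻¹ • T)⁻¹ = 1 + (ω θ)⁻¹ • (T * (1 - (ω θ)⁻¹ • T)⁻¹) := by
      have := mul_nonsing_inv _ u1
      rw [Matrix.sub_mul, Matrix.one_mul, Matrix.smul_mul] at this
      exact eq_add_of_sub_eq this
    have e3 : w (ω θ) • (1 - (ω θ)⁻¹ • T)⁻¹ =
        (1 - (ω θ)⁻¹ • T)⁻¹ * aeval T r + ω θ • S (ω θ) := by
      have h2 := congrArg ((1 - (ω θ)⁻¹ • T)⁻¹ * ·) (hwS (ω θ) (hsub (hm1 θ)).1)
      simp only [Matrix.mul_smul, Matrix.mul_one, Matrix.mul_add] at h2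
      rw [h2, show ω θ • (1 : Matrix (Fin n) (Fin n) ℂ) - T = ω θ • (1 - (ω θ)⁻¹ • T) by
        rw [smul_sub, smul_smul, mul_inv_cancel₀ (hω0 θ), one_smul], Matrix.smul_mul,
        Matrix.mul_smul, ← Matrix.mul_assoc, nonsing_inv_mul _ u1, Matrix.one_mul]
    have e4 : w (ω θ) • poiss T (ω θ) = aeval T r +
        (ω θ)⁻¹ • (T * (1 - (ω θ)⁻¹ • T)⁻¹ * aeval T r) + ω θ • S (ω θ) +
          w (ω θ) • ω θ • (Tᴴ * (1 - ω θ • Tᴴ)⁻¹) := by
      rw [poiss, add_sub_assoc, smul_add, e1, e3]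
      congr 2
      conv_lhs => rw [e2]
      rw [Matrix.add_mul, Matrix.one_mul, Matrix.smul_mul]
    have e5 := congrFun (congrFun e4 i) j
    simp only [Matrix.smul_apply, Matrix.add_apply, smul_eq_mul] at e5
    simp only [Matrix.smul_apply, smul_eq_mul, F₁, F₂]
    linear_combination (c θ : ℂ) * e5 + (c θ * ω θ * (S (ω θ) i j + w (ω θ) *
      (Tᴴ * (1 - ω θ • Tᴴ)⁻¹) i j) + c θ * (ω θ)⁻¹ *
        (T * (1 - (ω θ)⁻¹ • T)⁻¹ * aeval T r) i j) * Complex.I_mul_I
  simp only [key]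
  have d0 : Continuous fun θ => (c θ : ℂ) * aeval T r i j := hcc.mul continuous_const
  have d1 : Continuous fun θ => -Complex.I * (F₁ (ω θ) * (Complex.I * c θ * ω θ)) :=
    continuous_const.mul (c1.mul ((continuous_const.mul hcc).mul hωc))
  have d2 : Continuous fun θ => Complex.I * (F₂ (ω θ)⁻¹ * -(Complex.I * c θ * (ω θ)⁻¹)) :=
    continuous_const.mul (c2.mul ((continuous_const.mul hcc).mul hωi).neg)
  rw [intervalIntegral.integral_add ((d0.intervalIntegrable _ _).add (d1.intervalIntegrable _ _))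
    (d2.intervalIntegrable _ _),
    intervalIntegral.integral_add (d0.intervalIntegrable _ _) (d1.intervalIntegrable _ _),
    intervalIntegral.integral_const_mul,
    intervalIntegral.integral_const_mul, I1, I2, intervalIntegral.integral_mul_const,
    intervalIntegral.integral_ofReal]
  simp

theorem winding_one {ω : ℝ → ℂ} {c : ℝ → ℝ} (hω : ∀ θ, HasDerivAt ω (Complex.I * c θ * ω θ) θ)
    (hc : Continuous c) (hc0 : ∀ θ, 0 ≤ c θ) (h0 : ω 0 ≠ 0) (hper : ω (2 * Real.pi) = ω 0)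
    (hinj : ∀ θ, 0 < θ → θ < 2 * Real.pi → ω θ ≠ ω 0) :
    ∫ θ in (0 : ℝ)..2 * Real.pi, c θ = 2 * Real.pi := by
  let α : ℝ → ℝ := fun θ => ∫ x in (0 : ℝ)..θ, c x
  have hα : ∀ θ, HasDerivAt α (c θ) θ := fun θ => (hc.integral_hasStrictDerivAt 0 θ).hasDerivAt
  have hα0 : α 0 = 0 := by simp [α]
  have h1 : ∀ θ, ω θ = ω 0 * Complex.exp (α θ * Complex.I) := by
    intro θ
    have hd : ∀ θ, HasDerivAt (fun θ => ω θ * Complex.exp (-(α θ * Complex.I))) 0 θ := fun θ => by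
      refine ((hω θ).fun_mul ((hα θ).ofReal_comp.mul_const Complex.I).fun_neg.cexp).congr_deriv ?_
      ring
    have := is_const_of_deriv_eq_zero (fun θ => (hd θ).differentiableAt) (fun θ => (hd θ).deriv) θ 0
    simp only [hα0, Complex.ofReal_zero, zero_mul, neg_zero, Complex.exp_zero, mul_one] at this
    rw [← this, mul_assoc, ← Complex.exp_add]
    simp
  have hmono : Monotone α := monotone_of_deriv_nonneg (fun θ => (hα θ).differentiableAt)
    fun θ => by rw [(hα θ).deriv]; exact hc0 θ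
  have hp := Real.pi_pos
  obtain ⟨k, hk⟩ := Complex.exp_eq_one_iff.1
    (mul_left_cancel₀ h0 ((h1 _).symm.trans (hper.trans (mul_one _).symm)))
  have hk' : α (2 * Real.pi) = k * (2 * Real.pi) := by
    rw [← mul_assoc] at hk
    exact_mod_cast mul_right_cancel₀ Complex.I_ne_zero hk
  have k1 : 0 < α (2 * Real.pi) := by
    refine lt_of_lt_of_le (lt_of_le_of_ne (hα0 ▸ hmono hp.le) fun h => ?_)
      (hmono (by linarith : Real.pi ≤ 2 * Real.pi))
    exact hinj Real.pi hp (by linarith) (by rw [h1 Real.pi, ← h]; simp)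
  have k2 : α (2 * Real.pi) ≤ 2 * Real.pi := by
    by_contra h
    obtain ⟨θ, hθ, h2⟩ := intermediate_value_Ioo (f := α) Real.two_pi_pos.le
      (fun θ _ => (hα θ).continuousAt.continuousWithinAt)
      (show 2 * Real.pi ∈ Ioo (α 0) (α (2 * Real.pi)) from ⟨by linarith, not_le.1 h⟩)
    exact hinj θ hθ.1 hθ.2 (by rw [h1 θ, h2]; simp)
  have k3 : (0 : ℝ) < k := by
    rw [hk'] at k1
    exact (mul_pos_iff_of_pos_right Real.two_pi_pos).1 k1
  have k4 : (1 : ℝ) ≤ k := by exact_mod_cast (show (0 : ℤ) < k by exact_mod_cast k3)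
  refine le_antisymm k2 ?_
  change _ ≤ α (2 * Real.pi)
  rw [hk']
  nlinarith

end Crest.Agent.R132
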