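import Crest.Agent.R132.Dens2
import Crest.Agent.Lib.Conformal.Inj

/-!
# Row 132: the boundary curve and the change of variables in the functional calculus
-/

set_option autoImplicit false

namespace Crest.Agent.R132

open Matrix Metric Set Filter Topology Polynomial
open scoped ComplexOrder

theorem circle_data {Ω U : Set ℂ} (hΩ₁ : IsOpen Ω) (hU : IsOpen U) (hΩU : closure Ω ⊆ U)
    {f : ℂ → ℂ} (hf₁ : DifferentiableOn ℂ f U) (hf₂ : Set.InjOn f U)
    (hf₃ : f '' Ω = Metric.ball 0 1) {G : ℂ → ℂ} {r : ℝ} (hr₂ : r < 1)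
    (hG₁ : DifferentiableOn ℂ G {t : ℂ | r < ‖t‖}) (hG₂ : Set.InjOn G {t : ℂ | r < ‖t‖})
    (hG₃ : G '' {t : ℂ | 1 < ‖t‖} = (closure Ω)ᶜ) :
    ∃ c : ℝ → ℝ, Continuous c ∧ Function.Periodic c (2 * Real.pi) ∧ (∀ θ, 0 ≤ c θ) ∧
      (∀ θ : ℝ, G (Complex.exp (θ * Complex.I)) ∈ closure Ω) ∧
      (∀ θ : ℝ, ‖f (G (Complex.exp (θ * Complex.I)))‖ = 1) ∧
      (∀ θ : ℝ, HasDerivAt (fun θ : ℝ => f (G (Complex.exp (θ * Complex.I))))
        (Complex.I * c θ * f (G (Complex.exp (θ * Complex.I)))) θ) ∧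
      ∫ θ in (0 : ℝ)..2 * Real.pi, c θ = 2 * Real.pi := by
  have hO₁ : IsOpen {t : ℂ | r < ‖t‖} := isOpen_lt continuous_const continuous_norm
  have hr : ∀ t : ℂ, ‖t‖ = 1 → t ∈ {t : ℂ | r < ‖t‖} := fun t ht => by simpa [ht]
  have h1 : ∀ t : ℂ, ‖t‖ = 1 → G t ∈ closure Ω := by
    intro t ht
    by_contra h
    obtain ⟨t', h1, h2⟩ := hG₃.symm.subset h
    have := hG₂ (hr₂.trans h1) (hr t ht) h2
    rw [this, mem_ofPred_eq, ht] at h1
    exact lt_irrefl _ h1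
  have h2 : ∀ z ∈ U, z ∉ Ω → 1 ≤ ‖f z‖ := by
    intro z hz hzΩ
    by_contra h
    obtain ⟨z', h1, h2⟩ := hf₃.symm.subset (mem_ball_zero_iff.2 (not_le.1 h))
    exact hzΩ (hf₂ (hΩU (subset_closure h1)) hz h2 ▸ h1)
  have h3 : ∀ t : ℂ, ‖t‖ = 1 → ∀ W ∈ 𝓝 (G t), ∀ᶠ ρ : ℝ in 𝓝[>] 1,
      G (ρ * t) ∈ W ∧ G (ρ * t) ∉ closure Ω := by
    intro t ht W hW
    have a1 : Tendsto (fun ρ : ℝ => (ρ : ℂ) * t) (𝓝 1) (𝓝 t) :=
      Continuous.tendsto' (by fun_prop) _ _ (by simp)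
    have a2 := (hG₁.continuousOn.continuousAt (hO₁.mem_nhds (hr t ht))).tendsto.comp a1
    filter_upwards [nhdsWithin_le_nhds (a2 hW), self_mem_nhdsWithin] with ρ b1 b2
    refine ⟨b1, hG₃.subset ⟨_, ?_, rfl⟩⟩
    have b3 : 1 < ρ := b2
    rw [mem_ofPred_eq, norm_mul, ht, mul_one, Complex.norm_real, Real.norm_of_nonneg (by linarith)]
    exact b3
  have h4 : ∀ t : ℂ, ‖t‖ = 1 → ‖f (G t)‖ = 1 := by
    intro t ht
    refine le_antisymm ?_ (h2 _ (hΩU (h1 t ht)) fun h => ?_)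
    · have := (hf₁.continuousOn.mono hΩU).image_closure ⟨_, h1 t ht, rfl⟩
      rwa [hf₃, closure_ball _ one_ne_zero, mem_closedBall_zero_iff] at this
    · obtain ⟨ρ, b1, b2⟩ := (h3 t ht Ω (hΩ₁.mem_nhds h)).exists
      exact b2 (subset_closure b1)
  have hO : IsOpen ({t : ℂ | r < ‖t‖} ∩ G ⁻¹' U) :=
    hG₁.continuousOn.isOpen_inter_preimage hO₁ hU
  have hψ : DifferentiableOn ℂ (f ∘ G) ({t : ℂ | r < ‖t‖} ∩ G ⁻¹' U) :=
    hf₁.comp (hG₁.mono inter_subset_left) fun t ht => ht.2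
  have hm : ∀ t : ℂ, ‖t‖ = 1 → t ∈ {t : ℂ | r < ‖t‖} ∩ G ⁻¹' U := fun t ht =>
    ⟨hr t ht, hΩU (h1 t ht)⟩
  have he : ∀ θ : ℝ, ‖Complex.exp (θ * Complex.I)‖ = 1 := Complex.norm_exp_ofReal_mul_I
  have hec : Continuous fun θ : ℝ => Complex.exp (θ * Complex.I) := by fun_prop
  let z : ℂ → ℂ := fun t => t * deriv (f ∘ G) t / f (G t)
  have h0 : ∀ t : ℂ, ‖t‖ = 1 → f (G t) ≠ 0 := fun t ht h => by simpa [h] using h4 t ht
  have hz : ∀ t : ℂ, ‖t‖ = 1 → deriv (f ∘ G) t * t * (starRingEnd ℂ) (f (G t)) = z t := by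
    intro t ht
    rw [← Complex.inv_eq_conj (h4 t ht)]
    simp only [z]
    ring
  have hd : ∀ θ : ℝ, HasDerivAt (fun θ : ℝ => f (G (Complex.exp (θ * Complex.I))))
      (deriv (f ∘ G) (Complex.exp (θ * Complex.I)) * (Complex.exp (θ * Complex.I) * Complex.I))
      θ := by
    intro θ
    have a1 : HasDerivAt (fun s : ℂ => Complex.exp (s * Complex.I))
        (Complex.exp (θ * Complex.I) * (1 * Complex.I)) θ :=
      ((hasDerivAt_id' (θ : ℂ)).mul_const Complex.I).cexp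
    rw [one_mul] at a1
    exact ((hψ.differentiableAt (hO.mem_nhds (hm _ (he θ)))).hasDerivAt.comp (θ : ℂ)
      a1).comp_ofReal
  have hre : ∀ θ : ℝ, (((z (Complex.exp (θ * Complex.I))).re : ℝ) : ℂ) =
      z (Complex.exp (θ * Complex.I)) := by
    intro θ
    have a1 := (hd θ).norm_sq
    simp only [h4 _ (he _)] at a1
    have a2 := a1.unique (hasDerivAt_const θ _)
    rw [Complex.inner, ← mul_assoc, mul_right_comm, hz _ (he θ)] at a2
    refine Complex.ext (by simp) ?_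
    simpa [eq_comm] using a2
  have hd' : ∀ θ : ℝ, HasDerivAt (fun θ : ℝ => f (G (Complex.exp (θ * Complex.I))))
      (Complex.I * (z (Complex.exp (θ * Complex.I))).re * f (G (Complex.exp (θ * Complex.I))))
      θ := by
    intro θ
    refine (hd θ).congr_deriv ?_
    have := h0 _ (he θ)
    rw [hre]
    simp only [z]
    field_simp
  have hc : Continuous fun θ : ℝ => (z (Complex.exp (θ * Complex.I))).re := by
    refine Complex.continuous_re.comp (Continuous.div (hec.mul ?_) ?_ fun θ => h0 _ (he θ))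
    · exact (hψ.deriv hO).continuousOn.comp_continuous hec fun θ => hm _ (he θ)
    · exact hψ.continuousOn.comp_continuous hec fun θ => hm _ (he θ)
  have hc0 : ∀ t : ℂ, ‖t‖ = 1 → 0 ≤ (z t).re := by
    intro t ht
    have a1 : HasDerivAt (fun s : ℂ => (f ∘ G) (s * t)) (deriv (f ∘ G) t * (1 * t))
        ((1 : ℝ) : ℂ) := by
      have := HasDerivAt.comp_of_eq ((1 : ℝ) : ℂ)
        (hψ.differentiableAt (hO.mem_nhds (hm _ ht))).hasDerivAt
        ((hasDerivAt_id' _).mul_const t) (by simp)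
      exact this
    have a2 := hasDerivAt_iff_tendsto_slope.1 a1.comp_ofReal.norm_sq
    have a3 := ge_of_tendsto (a2.mono_left (nhdsGT_le_nhdsNE 1)) (b := 0) (by
      filter_upwards [h3 t ht U (hU.mem_nhds (hΩU (h1 t ht))), self_mem_nhdsWithin] with ρ b1 b2
      rw [slope_def_field]
      refine div_nonneg (sub_nonneg.2 ?_) (sub_nonneg.2 (le_of_lt b2))
      simp only [Function.comp, Complex.ofReal_one, one_mul, h4 t ht, one_pow]
      exact one_le_pow₀ (h2 _ b1.1 fun h => b1.2 (subset_closure h)))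
    simp only [Function.comp, Complex.ofReal_one, one_mul, Complex.inner] at a3
    erw [hz t ht] at a3
    linarith
  have hper : ∀ θ : ℝ, Complex.exp (((θ + 2 * Real.pi : ℝ) : ℂ) * Complex.I) =
      Complex.exp (θ * Complex.I) := fun θ => by
    push_cast
    rw [add_mul, Complex.exp_add, Complex.exp_two_pi_mul_I, mul_one]
  refine ⟨fun θ => (z (Complex.exp (θ * Complex.I))).re, hc, fun θ => by simp only [hper],
    fun θ => hc0 _ (he θ), fun θ => h1 _ (he θ), fun θ => h4 _ (he θ), hd',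
    winding_one hd' hc (fun θ => hc0 _ (he θ)) (h0 _ (he 0)) (by rw [← hper 0, zero_add])
      fun θ a1 a2 a3 => ?_⟩
  have a4 := hG₂ (hr _ (he θ)) (hr _ (he 0)) (hf₂ (hΩU (h1 _ (he θ))) (hΩU (h1 _ (he 0))) a3)
  rw [Complex.ofReal_zero, zero_mul, Complex.exp_zero] at a4
  obtain ⟨k, hk⟩ := Complex.exp_eq_one_iff.1 a4
  have hk' : θ = k * (2 * Real.pi) := by
    rw [← mul_assoc] at hk
    exact_mod_cast mul_right_cancel₀ Complex.I_ne_zero hk
  rw [hk'] at a1 a2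
  have k3 : (0 : ℝ) < k := (mul_pos_iff_of_pos_right Real.two_pi_pos).1 a1
  have k4 : (1 : ℝ) ≤ k := by exact_mod_cast (show (0 : ℤ) < k by exact_mod_cast k3)
  nlinarith [Real.two_pi_pos]

theorem exists_transfer {n : ℕ} {B : Matrix (Fin n) (Fin n) ℂ} {Ω U V : Set ℂ} (hΩ₁ : IsOpen Ω)
    (hΩ₂ : Bornology.IsBounded Ω) (hU : IsOpen U) (hΩU : closure Ω ⊆ U)
    {f : ℂ → ℂ} (hf₁ : DifferentiableOn ℂ f U) (hf₂ : Set.InjOn f U)
    (hf₃ : f '' Ω = Metric.ball 0 1) (hV : IsOpen V) (hΩV : closure Ω ⊆ V)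
    (hB : spectrum ℂ B ⊆ Ω) {p q : ℂ[X]} (hp : Rep Ω B f p)
    (hT : spectrum ℂ (aeval B p) ⊆ ball 0 1) {v : ℂ → ℂ} (hv : DifferentiableOn ℂ v V)
    (hq : Rep Ω B v q) :
    ∃ R > 1, ∃ (w : ℂ → ℂ) (r : ℂ[X]), Rep (ball 0 R) (aeval B p) w r ∧
      aeval (aeval B p) r = aeval B q ∧ ∀ z ∈ U, w (f z) = v z := by
  obtain ⟨ho, h, hh, hhf⟩ := Lib.Conformal.exists_inverse_of_injOn hU hf₁ hf₂
  obtain ⟨R, hR, hsub⟩ := exists_ball_subset (hh.continuousOn.isOpen_inter_preimage ho hV) (by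
    have h1 : IsClosed (f '' closure Ω) :=
      (hΩ₂.isCompact_closure.image_of_continuousOn (hf₁.continuousOn.mono hΩU)).isClosed
    rw [← closure_ball _ one_ne_zero, ← hf₃]
    refine (closure_minimal (image_mono subset_closure) h1).trans ?_
    rintro _ ⟨z, hz, rfl⟩
    exact ⟨⟨z, hΩU hz, rfl⟩, by rw [mem_preimage, hhf z (hΩU hz)]; exact hΩV hz⟩)
  have hw : DifferentiableOn ℂ (v ∘ h) (ball 0 R) :=
    hv.comp (hh.mono fun u hu => (hsub hu).1) fun u hu => (hsub hu).2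
  obtain ⟨r, hr⟩ := exists_rep isOpen_ball (hT.trans (ball_subset_ball hR.le)) hw
  refine ⟨R, hR, v ∘ h, r, hr, ?_, fun z hz => by rw [Function.comp, hhf z hz]⟩
  obtain ⟨k, hk, hrk⟩ := hr
  have hΩU' : Ω ⊆ U := subset_closure.trans hΩU
  have hfm : MapsTo f Ω (ball 0 R) := fun z hz =>
    ball_subset_ball hR.le (hf₃.subset ⟨z, hz, rfl⟩)
  obtain ⟨q', hq'⟩ := exists_rep hΩ₁ hB (hk.comp (hf₁.mono hΩU') hfm)
  have h1 := ((hp.comp_poly r).add ((hp.comp_poly (minpoly ℂ (aeval B p))).mul hq')).congr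
    (g := v) fun z hz => by
      have := hrk _ (hfm hz)
      rwa [Function.comp, hhf z (hΩU' hz)] at this
  rw [hq.aeval_eq hΩ₁ hB h1, map_add, map_mul, aeval_comp, aeval_comp, minpoly.aeval, zero_mul,
    add_zero]

theorem aeval_conj {n : ℕ} (A S : Matrix (Fin n) (Fin n) ℂ) (hS : IsUnit S.det) (q : ℂ[X]) :
    aeval (S * A * S⁻¹) q * S = S * aeval A q := by
  induction q using Polynomial.induction_on with
  | C a => simp [Algebra.algebraMap_eq_smul_one]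
  | add p q hp hq => simp only [map_add, Matrix.add_mul, Matrix.mul_add, hp, hq]
  | monomial k a ih =>
    rw [pow_succ, ← mul_assoc, map_mul (aeval (S * A * S⁻¹)), map_mul (aeval A), aeval_X, aeval_X,
      Matrix.mul_assoc, nonsing_inv_mul_cancel_right _ _ hS, ← Matrix.mul_assoc, ih,
      Matrix.mul_assoc]

end Crest.Agent.R132
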