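import Crest.Agent.R132.Defs

set_option autoImplicit false

namespace Crest.Agent.R132

open Metric Set Filter Topology
open scoped ComplexConjugate

/-- The inverted exterior of a set. -/
def invExt (c : ℂ) (K : Set ℂ) : Set ℂ := {u | u = 0 ∨ c + u⁻¹ ∉ K}

theorem isOpen_invExt {c : ℂ} {K : Set ℂ} (hK : IsClosed K) (hb : Bornology.IsBounded K) :
    IsOpen (invExt c K) := by
  refine isOpen_iff_mem_nhds.2 fun u hu => ?_
  by_cases h0 : u = 0
  · subst h0
    obtain ⟨R, hR, hKR⟩ := hb.subset_ball_lt 0 c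
    filter_upwards [ball_mem_nhds (0 : ℂ) (inv_pos.2 hR)] with u hu
    refine or_iff_not_imp_left.2 fun h1 h2 => ?_
    have h3 := hKR h2
    rw [mem_ball, dist_self_add_left, norm_inv] at h3
    rw [mem_ball_zero_iff] at hu
    exact lt_asymm h3 ((lt_inv_comm₀ (norm_pos_iff.2 h1) hR).1 hu)
  · have h1 : ContinuousAt (fun u : ℂ => c + u⁻¹) u := continuousAt_const.add (continuousAt_inv₀ h0)
    filter_upwards [h1.preimage_mem_nhds (hK.isOpen_compl.mem_nhds (hu.resolve_left h0))] with w hw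
    exact Or.inr hw

theorem isClosed_invExt {c : ℂ} {W : Set ℂ} (hW : IsOpen W) : IsClosed (invExt c W) := by
  refine isOpen_compl_iff.1 (isOpen_iff_mem_nhds.2 fun u hu => ?_)
  have h0 : u ≠ 0 := fun h => hu (Or.inl h)
  have h2 : c + u⁻¹ ∈ W := not_not.1 fun h => hu (Or.inr h)
  have h1 : ContinuousAt (fun u : ℂ => c + u⁻¹) u := continuousAt_const.add (continuousAt_inv₀ h0)
  filter_upwards [h1.preimage_mem_nhds (hW.mem_nhds h2), eventually_ne_nhds h0] with w hw hw0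
  rintro (h | h)
  · exact hw0 h
  · exact h hw

theorem isBounded_invExt {c : ℂ} {K : Set ℂ} {δ : ℝ} (hδ : 0 < δ) (h : closedBall c δ ⊆ K) :
    Bornology.IsBounded (invExt c K) := by
  refine (isBounded_closedBall (x := (0 : ℂ)) (r := δ⁻¹)).subset fun u hu => ?_
  rw [mem_closedBall_zero_iff]
  by_cases h0 : u = 0
  · rw [h0, norm_zero]; positivity
  · by_contra hc
    refine hu.resolve_left h0 (h ?_)
    rw [mem_closedBall, dist_self_add_left, norm_inv]
    exact ((inv_lt_comm₀ hδ (norm_pos_iff.2 h0)).1 (not_le.1 hc)).le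

theorem simplyConnected_invExt {c : ℂ} {K : Set ℂ} (hK : Convex ℝ K) (hc : c ∈ K) :
    IsSimplyConnected (invExt c K) := by
  have h : StarConvex ℝ (0 : ℂ) (invExt c K) := by
    intro u hu a b ha hb hab
    rw [smul_zero, zero_add]
    refine or_iff_not_imp_left.2 fun h1 h2 => ?_
    have hb0 : (b : ℂ) ≠ 0 := by
      intro h; apply h1; simp [h]
    have hu0 : u ≠ 0 := by
      intro h; apply h1; simp [h]
    refine hu.resolve_left hu0 ?_
    convert hK hc h2 ha hb hab using 1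
    have : (a : ℂ) = 1 - b := by rw [← Complex.ofReal_one, ← hab]; push_cast; ring
    simp only [Complex.real_smul, this]
    field_simp
    ring
  have := h.contractibleSpace ⟨0, Or.inl rfl⟩
  exact SimplyConnectedSpace.ofContractible _

theorem re_div_nonneg_iff {x n : ℂ} (hn : n ≠ 0) : 0 ≤ (x / n).re ↔ 0 ≤ (x * conj n).re := by
  have h : x / n = ((Complex.normSq n)⁻¹ : ℝ) * (x * conj n) := by
    rw [div_eq_mul_inv, Complex.inv_def]; ring
  rw [h, Complex.re_ofReal_mul]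
  exact mul_nonneg_iff_of_pos_left (inv_pos.2 (Complex.normSq_pos.2 hn))

theorem schwarz_step {c : ℂ} {K : Set ℂ} (hK : Convex ℝ K) (hc : c ∈ K)
    (hD : IsOpen (invExt c K)) {f g : ℂ → ℂ} (hf : DifferentiableOn ℂ f (invExt c K))
    (hg : DifferentiableOn ℂ g (ball 0 1)) (hfm : MapsTo f (invExt c K) (ball 0 1))
    (hgm : MapsTo g (ball 0 1) (invExt c K)) (hfg : ∀ v ∈ ball (0 : ℂ) 1, f (g v) = v)
    (hf0 : f 0 = 0) (hg0 : g 0 = 0) {z : ℂ} (hz : z ∈ K) {v : ℂ} (hv : v ∈ ball (0 : ℂ) 1)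
    (hv0 : v ≠ 0) :
    deriv g v ≠ 0 ∧ 0 ≤ ((c + (g v)⁻¹ - z) / (v * deriv g v / g v ^ 2)).re := by
  have hm : ∀ t : ℝ, 0 ≤ t → ∀ u ∈ invExt c K, (1 + t) + t * (c - z) * u ≠ 0 ∧
      u / ((1 + t) + t * (c - z) * u) ∈ invExt c K := by
    intro t ht u hu
    have ht1 : (1 + t : ℂ) ≠ 0 := by exact_mod_cast (by linarith : (1 + t : ℝ) ≠ 0)
    by_cases h0 : u = 0
    · subst h0
      exact ⟨by simpa using ht1, Or.inl (by simp)⟩
    have h1 : c + ((1 + t) + t * (c - z) * u) / u ∉ K := by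
      intro h2
      refine hu.resolve_left h0 ?_
      convert hK h2 hz (a := 1 / (1 + t)) (b := t / (1 + t)) (by positivity) (by positivity)
        (by field_simp) using 1
      simp only [Complex.real_smul]
      push_cast
      field_simp
      ring
    refine ⟨fun h => h1 (by rwa [h, zero_div, add_zero]), Or.inr (by rwa [inv_div])⟩
  have h1 : ∀ t : ℝ, 0 ≤ t → ‖f (g v / ((1 + t) + t * (c - z) * g v))‖ ≤ ‖v‖ := by
    intro t ht
    refine Complex.norm_le_norm_of_mapsTo_ball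
      (f := fun v => f (g v / ((1 + t) + t * (c - z) * g v))) (R := 1) ?_
      (fun w hw => ball_subset_closedBall (hfm (hm t ht _ (hgm hw)).2)) (by simp [hg0, hf0])
      (mem_ball_zero_iff.1 hv)
    refine hf.comp (hg.div ((hg.const_mul _).const_add _) fun w hw => (hm t ht _ (hgm hw)).1)
      fun w hw => (hm t ht _ (hgm hw)).2
  have hfd := (hf.differentiableAt (hD.mem_nhds (hgm hv))).hasDerivAt
  have hgd := (hg.differentiableAt (isOpen_ball.mem_nhds hv)).hasDerivAt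
  have h2 : deriv f (g v) * deriv g v = 1 := by
    refine (hfd.comp v hgd).unique ((hasDerivAt_id v).congr_of_eventuallyEq ?_)
    filter_upwards [isOpen_ball.mem_nhds hv] with w hw using hfg w hw
  have hg' : deriv g v ≠ 0 := right_ne_zero_of_mul_eq_one h2
  have hgv : g v ≠ 0 := fun h => hv0 (by rw [← hfg v hv, h, hf0])
  refine ⟨hg', ?_⟩
  have h3 : HasDerivAt (fun t : ℂ => g v / ((1 + t) + t * (c - z) * g v))
      (-(g v * (1 + (c - z) * g v))) 0 := by
    have a1 : HasDerivAt (fun t : ℂ => (1 + t) + t * (c - z) * g v) (1 + 1 * (c - z) * g v) 0 :=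
      ((hasDerivAt_id' (0 : ℂ)).const_add 1).add
        (((hasDerivAt_id' (0 : ℂ)).mul_const (c - z)).mul_const (g v))
    refine ((hasDerivAt_const (0 : ℂ) (g v)).fun_div a1 (by simp)).congr_deriv ?_
    simp
  have h4 : HasDerivAt (fun t : ℂ => conj v * f (g v / ((1 + t) + t * (c - z) * g v)))
      (conj v * (deriv f (g v) * -(g v * (1 + (c - z) * g v)))) 0 :=
    (HasDerivAt.comp_of_eq (0 : ℂ) hfd h3 (by simp)).const_mul _
  have h5 := hasDerivAt_iff_tendsto_slope.1 (HasDerivAt.real_of_complex (z := 0) h4)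
  have h6 := le_of_tendsto (h5.mono_left (nhdsGT_le_nhdsNE 0)) (b := 0) (by
    filter_upwards [self_mem_nhdsWithin] with t ht
    rw [slope_def_field, sub_zero]
    refine div_nonpos_of_nonpos_of_nonneg (sub_nonpos.2 ?_) (le_of_lt ht)
    simp only [Complex.ofReal_zero, add_zero, zero_mul, div_one, hfg v hv]
    calc _ ≤ ‖conj v * f (g v / ((1 + t) + t * (c - z) * g v))‖ := Complex.re_le_norm _
      _ ≤ ‖v‖ * ‖v‖ := by
        rw [norm_mul, Complex.norm_conj]
        exact mul_le_mul_of_nonneg_left (h1 t (le_of_lt ht)) (norm_nonneg _)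
      _ = _ := by rw [Complex.conj_mul']; norm_cast; ring)
  have h7 : conj v * (deriv f (g v) * -(g v * (1 + (c - z) * g v))) =
      ((-‖v‖ ^ 2 : ℝ) : ℂ) * ((c + (g v)⁻¹ - z) / (v * deriv g v / g v ^ 2)) := by
    rw [eq_inv_of_mul_eq_one_left h2]
    push_cast
    rw [← Complex.conj_mul']
    field_simp
    ring
  rw [h7, Complex.re_ofReal_mul] at h6
  have h8 : 0 < ‖v‖ ^ 2 := pow_pos (norm_pos_iff.2 hv0) 2
  nlinarith

theorem ext_core (h : RMT) {c : ℂ} {K : Set ℂ} {δ : ℝ} (hK : Convex ℝ K) (hKc : IsClosed K)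
    (hb : Bornology.IsBounded K) (hδ : 0 < δ) (hcδ : closedBall c δ ⊆ K) :
    ∃ H : ℂ → ℂ, DifferentiableOn ℂ H (ball 0 1) ∧ H 0 ≠ 0 ∧
      (∀ u ∈ ball (0 : ℂ) 1, ∀ v ∈ ball (0 : ℂ) 1, u ≠ 0 → v ≠ 0 → H u / u = H v / v → u = v) ∧
      (∀ v ∈ ball (0 : ℂ) 1, v ≠ 0 → nrm H v ≠ 0 ∧ H v / v ∉ K ∧
        ∀ z ∈ K, 0 ≤ ((H v / v - z) / nrm H v).re) ∧
      ∀ W, IsOpen W → K ⊆ W → ∃ ρ < 1, ∀ v : ℂ, ρ ≤ ‖v‖ → ‖v‖ < 1 → H v / v ∈ W := by
  have hc : c ∈ K := hcδ (mem_closedBall_self hδ.le)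
  have hD := isOpen_invExt (c := c) hKc hb
  obtain ⟨f, g, hf, hg, hfm, hgm, hgf, hfg, hf0⟩ := h (invExt c K) 0 hD
    (simplyConnected_invExt hK hc) (isBounded_invExt hδ hcδ) (Or.inl rfl)
  have hg0 : g 0 = 0 := by
    have := hgf 0 (Or.inl rfl)
    rwa [hf0] at this
  have h01 : (0 : ℂ) ∈ ball (0 : ℂ) 1 := mem_ball_self one_pos
  have hgv : ∀ v ∈ ball (0 : ℂ) 1, v ≠ 0 → g v ≠ 0 := fun v hv hv0 h =>
    hv0 (by rw [← hfg v hv, h, hf0])
  have hd : ∀ v, v ≠ 0 → dslope g 0 v = g v / v := fun v hv => by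
    rw [dslope_of_ne _ hv, slope_def_field, hg0, sub_zero, sub_zero]
  have hd0 : ∀ v ∈ ball (0 : ℂ) 1, dslope g 0 v ≠ 0 := by
    intro v hv
    by_cases hv0 : v = 0
    · subst hv0
      rw [dslope_same]
      have hfd := (hf.differentiableAt (hD.mem_nhds (hgm hv))).hasDerivAt
      have hgd := (hg.differentiableAt (isOpen_ball.mem_nhds hv)).hasDerivAt
      refine right_ne_zero_of_mul_eq_one ((hfd.comp 0 hgd).unique
        ((hasDerivAt_id (0 : ℂ)).congr_of_eventuallyEq ?_))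
      filter_upwards [isOpen_ball.mem_nhds hv] with w hw using hfg w hw
    · rw [hd v hv0]
      exact div_ne_zero (hgv v hv hv0) hv0
  have hΓ : ∀ v : ℂ, v ≠ 0 → (c * v + (dslope g 0 v)⁻¹) / v = c + (g v)⁻¹ := fun v hv => by
    rw [hd v hv, inv_div, add_div, mul_div_cancel_right₀ _ hv, div_div, mul_comm, ← div_div,
      div_self hv, one_div]
  refine ⟨fun v => c * v + (dslope g 0 v)⁻¹, ?_, by simpa using hd0 0 h01, ?_, ?_, ?_⟩
  · exact (differentiableOn_id.const_mul c).add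
      (((Complex.differentiableOn_dslope (ball_mem_nhds _ one_pos)).2 hg).inv hd0)
  · intro u hu v hv hu0 hv0 h
    rw [hΓ u hu0, hΓ v hv0, add_right_inj, inv_inj] at h
    rw [← hfg u hu, h, hfg v hv]
  · intro v hv hv0
    have hn : nrm (fun v => c * v + (dslope g 0 v)⁻¹) v = v * deriv g v / g v ^ 2 := by
      have hgd := (hg.differentiableAt (isOpen_ball.mem_nhds hv)).hasDerivAt
      have h1 : HasDerivAt (fun v => c * v + v / g v)
          (c * 1 + (1 * g v - v * deriv g v) / g v ^ 2) v :=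
        ((hasDerivAt_id' v).const_mul c).add ((hasDerivAt_id' v).fun_div hgd (hgv v hv hv0))
      have h2 : HasDerivAt (fun v => c * v + (dslope g 0 v)⁻¹)
          (c * 1 + (1 * g v - v * deriv g v) / g v ^ 2) v := by
        refine h1.congr_of_eventuallyEq ?_
        filter_upwards [eventually_ne_nhds hv0] with w hw
        rw [hd w hw, inv_div]
      rw [nrm, h2.deriv, hd v hv0]
      have := hgv v hv hv0
      field_simp
      ring
    rw [hn, hΓ v hv0]
    refine ⟨div_ne_zero (mul_ne_zero hv0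
      (schwarz_step hK hc hD hf hg hfm hgm hfg hf0 hg0 hc hv hv0).1) (pow_ne_zero _ (hgv v hv hv0)),
      (hgm hv).resolve_left (hgv v hv hv0), fun z hz =>
      (schwarz_step hK hc hD hf hg hfm hgm hfg hf0 hg0 hz hv hv0).2⟩
  · intro W hW hKW
    have h1 : invExt c W ⊆ invExt c K := fun u hu => hu.imp id fun h h' => h (hKW h')
    have h2 : IsCompact (invExt c W) := isCompact_of_isClosed_isBounded (isClosed_invExt hW)
      ((isBounded_invExt hδ hcδ).subset h1)
    obtain ⟨ρ, hρ, h3⟩ := exists_lt_subset_ball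
      (h2.image_of_continuousOn (hf.continuousOn.mono h1)).isClosed
      (mapsTo_iff_image_subset.1 (hfm.mono_left h1))
    refine ⟨ρ, hρ, fun v h4 h5 => ?_⟩
    have h6 : g v ∉ invExt c W := fun h => by
      have := h3 ⟨_, h, hfg v (mem_ball_zero_iff.2 h5)⟩
      exact absurd (mem_ball_zero_iff.1 this) (not_lt.2 h4)
    have hv0 : v ≠ 0 := by
      rintro rfl
      exact h6 (Or.inl hg0)
    rw [hΓ v hv0]
    exact not_not.1 fun h => h6 (Or.inr h)

theorem ext_convex {c : ℂ} {K : Set ℂ} {δ : ℝ} (hK : Convex ℝ K) (hδ : 0 < δ)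
    (hcδ : closedBall c δ ⊆ K) {H : ℂ → ℂ} (hH : DifferentiableOn ℂ H (ball 0 1)) (h0 : H 0 ≠ 0)
    (ha : ∀ v ∈ ball (0 : ℂ) 1, v ≠ 0 → nrm H v ≠ 0 ∧ H v / v ∉ K ∧
      ∀ z ∈ K, 0 ≤ ((H v / v - z) / nrm H v).re)
    (hp : ∀ W, IsOpen W → K ⊆ W → ∃ ρ < 1, ∀ v : ℂ, ρ ≤ ‖v‖ → ‖v‖ < 1 → H v / v ∈ W)
    {l v : ℂ} (hl : ‖l‖ = 1) (hv : v ∈ ball (0 : ℂ) 1) (hv0 : v ≠ 0) :
    0 ≤ ((H v / v - H (l * v) / (l * v)) / nrm H v).re := by
  have hl0 : l ≠ 0 := by rintro rfl; simp at hl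
  have key : ∀ η : ℝ, 0 < η →
      0 ≤ ((H v / v - H (l * v) / (l * v)) / nrm H v).re + η * ((H v / v - c) / nrm H v).re := by
    intro η hη
    have hη' : (η : ℂ) ≠ 0 := by exact_mod_cast hη.ne'
    have hη1 : (1 + η : ℂ) ≠ 0 := by exact_mod_cast (by linarith : (1 + η : ℝ) ≠ 0)
    let Φ : ℂ → ℂ := fun w => ((1 + η) * H w - H (l * w) / l - η * c * w) / (H w - w * deriv H w)
    have hΦ : ∀ w, w ≠ 0 → Φ w = ((1 + η) * (H w / w) - H (l * w) / (l * w) - η * c) / nrm H w := by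
      intro w hw
      simp only [Φ, nrm]
      rw [div_div_eq_mul_div]
      congr 1
      field_simp
    have hΦd : DifferentiableOn ℂ Φ (ball 0 1) := by
      refine DifferentiableOn.div (((hH.const_mul _).sub (DifferentiableOn.div_const
        (hH.comp (differentiableOn_id.const_mul l) fun w hw => ?_) _)).sub
          (differentiableOn_id.const_mul _))
        (hH.sub (differentiableOn_id.mul (hH.deriv isOpen_ball))) fun w hw => ?_
      · rw [mem_ball_zero_iff] at hw ⊢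
        simpa [hl] using hw
      · by_cases hw0 : w = 0
        · simpa [hw0] using h0
        · exact fun h => (ha w hw hw0).1 (by rw [nrm, h, zero_div])
    obtain ⟨ρ₀, hρ₀, h1⟩ := hp (thickening (η * δ) K) isOpen_thickening
      (self_subset_thickening (by positivity) K)
    have hv1 := mem_ball_zero_iff.1 hv
    have hvp := norm_pos_iff.2 hv0
    let ρ := max ρ₀ ‖v‖
    have hρ1 : ρ < 1 := max_lt hρ₀ hv1
    have hρp : 0 < ρ := hvp.trans_le (le_max_right _ _)
    have h2 : ‖Complex.exp (-Φ v)‖ ≤ 1 := by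
      refine Complex.norm_le_of_forall_mem_frontier_norm_le (f := fun w => Complex.exp (-Φ w))
        (U := ball 0 ρ) isBounded_ball
        (hΦd.neg.cexp.diffContOnCl_ball (closedBall_subset_ball hρ1)) (fun w hw => ?_) ?_
      · rw [frontier_ball _ hρp.ne', mem_sphere_zero_iff_norm] at hw
        have hw0 : w ≠ 0 := by rintro rfl; rw [norm_zero] at hw; exact hρp.ne hw
        obtain ⟨k, hk, hke⟩ := mem_thickening_iff.1 (h1 (l * w)
          (by rw [norm_mul, hl, one_mul, hw]; exact le_max_left _ _)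
          (by rw [norm_mul, hl, one_mul, hw]; exact hρ1))
        have hz : c + (H (l * w) / (l * w) - k) / η ∈ K := by
          refine hcδ ?_
          rw [mem_closedBall, dist_self_add_left, norm_div, Complex.norm_real,
            Real.norm_of_nonneg hη.le, div_le_iff₀ hη, ← dist_eq_norm, mul_comm δ]
          exact hke.le
        have h3 := (ha w (mem_ball_zero_iff.2 (hw ▸ hρ1)) hw0).2.2 _
          (hK hk hz (a := 1 / (1 + η)) (b := η / (1 + η)) (by positivity) (by positivity)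
            (by field_simp))
        rw [Complex.norm_exp, Real.exp_le_one_iff, Complex.neg_re, neg_nonpos, hΦ w hw0]
        have h4 := mul_nonneg (by positivity : 0 ≤ 1 + η) h3
        rw [← Complex.re_ofReal_mul, ← mul_div_assoc] at h4
        refine h4.trans_eq ?_
        congr 2
        simp only [Complex.real_smul]
        push_cast
        field_simp
        ring
      · rw [closure_ball _ hρp.ne', mem_closedBall_zero_iff]
        exact le_max_right _ _
    rw [Complex.norm_exp, Real.exp_le_one_iff, Complex.neg_re, neg_nonpos, hΦ v hv0] at h2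
    rw [← Complex.re_ofReal_mul, ← Complex.add_re, ← mul_div_assoc, ← add_div]
    convert h2 using 3
    ring
  have h1 : Tendsto (fun η : ℝ => ((H v / v - H (l * v) / (l * v)) / nrm H v).re +
      η * ((H v / v - c) / nrm H v).re) (𝓝[>] 0)
      (𝓝 (((H v / v - H (l * v) / (l * v)) / nrm H v).re +
        0 * ((H v / v - c) / nrm H v).re)) :=
    (Continuous.tendsto (by fun_prop) 0).mono_left nhdsWithin_le_nhds
  rw [zero_mul, add_zero] at h1
  exact ge_of_tendsto h1 (eventually_nhdsWithin_of_forall key)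

theorem extExists_of_rmt (h : RMT) : ExtExists := by
  intro Ω V hΩ hb hconv ⟨c, hc⟩ hV hΩV
  obtain ⟨δ, hδ, hcδ⟩ := nhds_basis_closedBall.mem_iff.1 (hΩ.mem_nhds hc)
  replace hcδ := hcδ.trans subset_closure
  obtain ⟨H, hH, h0, hinj, ha, hp⟩ := ext_core h hconv.closure isClosed_closure hb.closure hδ hcδ
  obtain ⟨ρ₀, hρ₀, h1⟩ := hp V hV hΩV
  let ρ : ℝ := max ρ₀ (1 / 2)
  have hρ1 : ρ < 1 := max_lt hρ₀ (by norm_num)
  have hρp : 0 < ρ := lt_max_of_lt_right (by norm_num)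
  have hρ' : (ρ : ℂ) ≠ 0 := by exact_mod_cast hρp.ne'
  have hnorm : ∀ v : ℂ, ‖ρ * v‖ = ρ * ‖v‖ := fun v => by
    rw [norm_mul, Complex.norm_real, Real.norm_of_nonneg hρp.le]
  have hmem : ∀ v ∈ ball (0 : ℂ) ρ⁻¹, ρ * v ∈ ball (0 : ℂ) 1 := fun v hv => by
    rw [mem_ball_zero_iff] at hv ⊢
    rw [hnorm, ← lt_div_iff₀' hρp, one_div]
    exact hv
  have hs : 1 < ρ⁻¹ := (one_lt_inv₀ hρp).2 hρ1
  have hsph : ∀ v : ℂ, ‖v‖ = 1 → v ∈ ball (0 : ℂ) ρ⁻¹ ∧ v ≠ 0 := fun v hv =>
    ⟨mem_ball_zero_iff.2 (hv ▸ hs), by rintro rfl; simp at hv⟩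
  have hΓ : ∀ v : ℂ, H (ρ * v) / ρ / v = H (ρ * v) / (ρ * v) := fun v => div_div _ _ _
  have hn : ∀ v : ℂ, ‖v‖ = 1 → nrm (fun v => H (ρ * v) / ρ) v = nrm H (ρ * v) := by
    intro v hv
    have h2 := ((hH.differentiableAt (isOpen_ball.mem_nhds (hmem v (hsph v hv).1))).hasDerivAt.comp
      v ((hasDerivAt_id' v).const_mul (ρ : ℂ))).div_const (ρ : ℂ)
    have h3 := (hsph v hv).2
    rw [nrm, nrm, show deriv (fun v => H (ρ * v) / ρ) v = _ from h2.deriv]
    field_simp
  refine ⟨ρ⁻¹, fun v => H (ρ * v) / ρ, ⟨hs, ?_, by simpa [hρp.ne'] using h0, ?_, ?_, ?_⟩, ?_, ?_, ?_⟩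
  · exact (hH.comp (differentiableOn_id.const_mul _) hmem).div_const _
  · intro u hu v hv h
    have h0' : H (ρ * 0) / ρ ≠ 0 := by simpa [hρp.ne'] using h0
    by_cases hu0 : u = 0
    · subst hu0
      rw [zero_mul] at h
      exact ((mul_eq_zero.1 h.symm).resolve_right h0').symm
    by_cases hv0 : v = 0
    · subst hv0
      rw [zero_mul] at h
      exact (mul_eq_zero.1 h).resolve_right h0'
    refine mul_left_cancel₀ hρ' (hinj _ (hmem u hu) _ (hmem v hv) (mul_ne_zero hρ' hu0)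
      (mul_ne_zero hρ' hv0) ?_)
    rw [← hΓ, ← hΓ, div_eq_div_iff hu0 hv0]
    linear_combination -h
  · intro v hv
    rw [hn v hv]
    exact (ha _ (hmem v (hsph v hv).1) (mul_ne_zero hρ' (hsph v hv).2)).1
  · intro u v hu hv
    have h2 := (hsph v hv).2
    have h3 := ext_convex hconv.closure hδ hcδ hH h0 ha hp (l := u / v) (by simp [hu, hv])
      (hmem v (hsph v hv).1) (mul_ne_zero hρ' h2)
    rw [show u / v * (ρ * v) = ρ * u by field_simp] at h3
    rw [hn v hv, hΓ, hΓ]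
    exact (re_div_nonneg_iff (ha _ (hmem v (hsph v hv).1) (mul_ne_zero hρ' h2)).1).1 h3
  · intro v hv
    rw [hΓ]
    exact h1 _ (by rw [hnorm, hv, mul_one]; exact le_max_left _ _) (by rwa [hnorm, hv, mul_one])
  · intro v hv hv0
    rw [hΓ]
    exact (ha _ (hmem v hv) (mul_ne_zero hρ' hv0)).2.1
  · intro z hz v hv
    have h2 := ha _ (hmem v (hsph v hv).1) (mul_ne_zero hρ' (hsph v hv).2)
    rw [hn v hv, hΓ]
    exact (re_div_nonneg_iff h2.1).1 (h2.2.2 z hz)

end Crest.Agent.R132
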