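import Crest.Agent.R132.Defs

/-!
# Row 132: the Toeplitz–Hausdorff theorem and basic facts on the numerical range
-/

set_option autoImplicit false

open Crest.AnalysisR.NumRange Matrix

namespace Crest.Agent.R132

section
variable {E : Type*} [NormedAddCommGroup E] [InnerProductSpace ℂ E]

theorem exists_unit_of_inner (B : E →ₗ[ℂ] E) {h : E} (h0 : h ≠ 0) {τ : ℂ}
    (hτ : inner ℂ h (B h) = τ * (‖h‖ : ℂ) ^ 2) : ∃ z : E, ‖z‖ = 1 ∧ inner ℂ z (B z) = τ := by
  have hn : (‖h‖ : ℂ) ≠ 0 := by exact_mod_cast norm_ne_zero_iff.2 h0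
  refine ⟨((‖h‖ : ℂ))⁻¹ • h, norm_smul_inv_norm h0, ?_⟩
  rw [map_smul, inner_smul_left, inner_smul_right, hτ, map_inv₀, Complex.conj_ofReal]
  field_simp

theorem th_core (B : E →ₗ[ℂ] E) {x y : E} (hx : ‖x‖ = 1) (hy : ‖y‖ = 1)
    (h0 : inner ℂ x (B x) = 0) (h1 : inner ℂ y (B y) = 1) {τ : ℝ} (hτ0 : 0 ≤ τ) (hτ1 : τ ≤ 1) :
    ∃ z : E, ‖z‖ = 1 ∧ inner ℂ z (B z) = τ := by
  obtain ⟨l, hl, hw⟩ := Complex.exists_norm_eq_mul_self
    (inner ℂ x (B y) - (starRingEnd ℂ) (inner ℂ y (B x)))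
  have hll : (starRingEnd ℂ) l * l = 1 := by rw [Complex.conj_mul', hl]; simp
  set w := l * inner ℂ x (B y) + (starRingEnd ℂ) l * inner ℂ y (B x) with hwd
  have hwim : w = (w.re : ℂ) := by
    refine Complex.ext (by simp) ?_
    have := congrArg Complex.im hw
    simp only [hwd, Complex.ofReal_im, Complex.mul_im, Complex.sub_im, Complex.sub_re,
      Complex.conj_re, Complex.conj_im, Complex.add_im] at this ⊢
    linarith
  let h : ℝ → E := fun t => ((1 - t : ℝ) : ℂ) • x + ((t : ℂ) * l) • y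
  have hB : ∀ t, inner ℂ (h t) (B (h t)) = (((1 - t) * t * w.re + t ^ 2 : ℝ) : ℂ) := by
    intro t
    simp only [h, map_add, map_smul, inner_add_left, inner_add_right, inner_smul_left,
      inner_smul_right, h0, h1, map_mul, Complex.conj_ofReal]
    push_cast
    rw [← hwim, hwd]
    linear_combination (t : ℂ) ^ 2 * hll
  have hne : ∀ t, h t ≠ 0 := by
    intro t ht
    have e : ((1 - t : ℝ) : ℂ) • x = -(((t : ℂ) * l) • y) := eq_neg_of_add_eq_zero_left ht
    have e2 := congrArg (fun u => inner ℂ u (B u)) e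
    simp only [map_neg, map_smul, inner_neg_left, inner_neg_right, inner_smul_left,
      inner_smul_right, h0, h1, map_mul, Complex.conj_ofReal] at e2
    have e3 : (t : ℂ) ^ 2 = 0 := by linear_combination -e2 - (t : ℂ) ^ 2 * hll
    have e4 : (t : ℂ) = 0 := by simpa using e3
    have e5 : t = 0 := by exact_mod_cast e4
    subst e5
    simp only [sub_zero, Complex.ofReal_one, one_smul, Complex.ofReal_zero, zero_mul, zero_smul,
      neg_zero] at e
    simp [e] at hx
  have hc : Continuous fun t : ℝ => (1 - t) * t * w.re + t ^ 2 - τ * ‖h t‖ ^ 2 := by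
    simp only [h]; fun_prop
  obtain ⟨t, -, ht⟩ := intermediate_value_Icc zero_le_one hc.continuousOn
    (show (0 : ℝ) ∈ _ from ⟨by simp [h, hx, hτ0], by simp [h, norm_smul, hy, hl, hτ1]⟩)
  refine exists_unit_of_inner B (hne t) ?_
  rw [hB]
  exact_mod_cast sub_eq_zero.1 ht

/-- Toeplitz–Hausdorff. -/
theorem convex_inner_range (A : E →ₗ[ℂ] E) :
    Convex ℝ {z : ℂ | ∃ x : E, ‖x‖ = 1 ∧ z = inner ℂ x (A x)} := by
  rintro _ ⟨x, hx, rfl⟩ _ ⟨y, hy, rfl⟩ s t hs ht hst
  obtain rfl : s = 1 - t := by linarith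
  set a := inner ℂ x (A x) with ha
  set b := inner ℂ y (A y) with hb
  by_cases hab : b - a = 0
  · refine ⟨x, hx, ?_⟩
    rw [sub_eq_zero.1 hab, ← add_smul]; simp [ha]
  have hB : ∀ u : E, ‖u‖ = 1 → inner ℂ u (((b - a)⁻¹ • (A - a • LinearMap.id) : E →ₗ[ℂ] E) u)
      = (b - a)⁻¹ * (inner ℂ u (A u) - a) := by
    intro u hu
    simp [hu]
  obtain ⟨z, hz, h⟩ := th_core ((b - a)⁻¹ • (A - a • LinearMap.id)) hx hy
    (by rw [hB x hx, ← ha, sub_self, mul_zero]) (by rw [hB y hy, ← hb, inv_mul_cancel₀ hab])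
    ht (by linarith)
  refine ⟨z, hz, ?_⟩
  rw [hB z hz, inv_mul_eq_iff_eq_mul₀ hab] at h
  simp only [Complex.real_smul]
  push_cast
  linear_combination -h

end

variable {n : ℕ}

theorem convex_numRange (A : Matrix (Fin n) (Fin n) ℂ) : Convex ℝ (numRange A) :=
  convex_inner_range _

theorem isCompact_numRange (A : Matrix (Fin n) (Fin n) ℂ) : IsCompact (numRange A) := by
  have : numRange A = (fun x : EuclideanSpace ℂ (Fin n) => inner ℂ x (toEuclideanLin A x)) ''
      Metric.sphere 0 1 := by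
    ext z
    simp only [numRange, Set.mem_ofPred_eq, Set.mem_image, mem_sphere_zero_iff_norm, eq_comm]
  rw [this]
  exact (isCompact_sphere _ _).image
    (continuous_id.inner (toEuclideanLin A).continuous_of_finiteDimensional)

theorem numRange_nonempty (hn : 1 ≤ n) (A : Matrix (Fin n) (Fin n) ℂ) : (numRange A).Nonempty :=
  ⟨_, EuclideanSpace.single ⟨0, hn⟩ 1, by simp, rfl⟩

theorem spectrum_subset_numRange (A : Matrix (Fin n) (Fin n) ℂ) : spectrum ℂ A ⊆ numRange A := by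
  intro μ hμ
  rw [← spectrum_toLpLin 2, ← Module.End.hasEigenvalue_iff_mem_spectrum] at hμ
  obtain ⟨x, hx⟩ := hμ.exists_hasEigenvector
  obtain ⟨z, hz, h⟩ := exists_unit_of_inner (toEuclideanLin A) hx.2 (τ := μ)
    (by rw [hx.apply_eq_smul, inner_smul_right, inner_self_eq_norm_sq_to_K]; rfl)
  exact ⟨z, hz, h.symm⟩

end Crest.Agent.R132
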