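import Crest.Agent.R132.Core
import Crest.Agent.R132.TH
import Crest.Agent.R132.Ext
import Crest.Agent.Lib.Conformal.RMT

/-!
# Row 132: the completely bounded Crouzeix inequality for matrices
-/

set_option autoImplicit false

namespace Crest.Agent.R132

open Polynomial Metric Set Matrix
open Crest.AnalysisR.NumRange

theorem cbCrouzeix : CbCrouzeix := by
  intro n m A U hU hAU F q hq M hM0 hM
  rcases Nat.eq_zero_or_pos n with rfl | hn
  · have : matFn A q = 0 := Subsingleton.elim _ _
    rw [this, map_zero, norm_zero]; positivity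
  have hK := isCompact_numRange A
  have hKc := convex_numRange A
  have hKne := numRange_nonempty hn A
  have hFc : ContinuousOn (fun z => ‖toEuclideanCLM (n := Fin m) (𝕜 := ℂ) (F z)‖) U := by
    have h1 : ContinuousOn F U :=
      continuousOn_pi.2 fun c => continuousOn_pi.2 fun d => (hq c d).differentiableOn.continuousOn
    have h2 : Continuous fun B : Matrix (Fin m) (Fin m) ℂ =>
        toEuclideanCLM (n := Fin m) (𝕜 := ℂ) B :=
      LinearMap.continuous_of_finiteDimensional
        (toEuclideanCLM (n := Fin m) (𝕜 := ℂ)).toAlgEquiv.toLinearMap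
    exact (h2.comp_continuousOn h1).norm
  have key : ∀ ε : ℝ, 0 < ε →
      ‖toEuclideanCLM (n := Fin n × Fin m) (𝕜 := ℂ) (matFn A q)‖ ≤ 2 * (M + ε) := by
    intro ε hε
    have hWo : IsOpen (U ∩ (fun z => ‖toEuclideanCLM (n := Fin m) (𝕜 := ℂ) (F z)‖) ⁻¹'
        Iio (M + ε)) := hFc.isOpen_inter_preimage hU isOpen_Iio
    obtain ⟨δ, hδ, hδW⟩ := hK.exists_thickening_subset_open hWo fun z hz =>
      ⟨hAU hz, (hM z hz).trans_lt (by linarith)⟩
    have hcl : closure (thickening (δ / 2) (numRange A)) ⊆ thickening δ (numRange A) :=
      (closure_thickening_subset_cthickening _ _).trans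
        (cthickening_subset_thickening' hδ (by linarith) _)
    have hKΩ : numRange A ⊆ closure (thickening (δ / 2) (numRange A)) :=
      (self_subset_thickening (by linarith) _).trans subset_closure
    obtain ⟨s, H, hH, hΓ, hout, hpos⟩ := extExists_of_rmt Lib.Conformal.rmt
      (thickening (δ / 2) (numRange A)) (thickening δ (numRange A)) isOpen_thickening
      hK.isBounded.thickening (hKc.thickening _)
      (hKne.mono (self_subset_thickening (by linarith) _)) isOpen_thickening hcl
    exact core hH (fun v hv hv0 h => hout v hv hv0 (hKΩ (spectrum_subset_numRange A h)))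
      (fun z hz => hpos z (hKΩ hz)) isOpen_thickening (hKc.thickening _) hΓ
      (fun c d => (hq c d).mono fun z hz => (hδW hz).1) (by linarith)
      fun v hv => (hδW (hΓ v hv)).2.le
  refine le_of_forall_pos_le_add fun ε hε => ?_
  have := key (ε / 2) (by linarith)
  linarith

end Crest.Agent.R132
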