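import Crest.Agent.R132.Defs

/-!
# Row 132: the metric problem `1 ≼ H ≼ τ`, `Tᴴ H T ≼ H`

Strict feasibility, attainment of the minimum, duality, and the lurking isometry.
-/

set_option autoImplicit false

open scoped ComplexOrder MatrixOrder Matrix.Norms.L2Operator
open Crest.AnalysisR.NumRange Matrix Filter Topology

namespace Crest.Agent.R132

variable {n : ℕ}

theorem posSemidef_norm_smul_sub {A : Matrix (Fin n) (Fin n) ℂ} (hA : A.IsHermitian) :
    (((‖A‖ : ℝ) : ℂ) • (1 : Matrix (Fin n) (Fin n) ℂ) - A).PosSemidef := by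
  have h := IsSelfAdjoint.le_algebraMap_norm_self (a := A) hA
  rw [Matrix.le_iff, Algebra.algebraMap_eq_smul_one] at h
  exact h

theorem exists_pow_norm_lt_one (T : Matrix (Fin n) (Fin n) ℂ) (hn : 1 ≤ n)
    (hT : spectrum ℂ T ⊆ Metric.ball 0 1) : ∃ N : ℕ, 1 ≤ N ∧ ‖T ^ N‖ < 1 := by
  have : Nonempty (Fin n) := ⟨⟨0, hn⟩⟩
  have h1 : spectralRadius ℂ T < (1 : NNReal) :=
    spectrum.spectralRadius_lt_of_forall_lt T fun z hz => by
      have := hT hz
      rw [mem_ball_zero_iff] at this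
      exact_mod_cast this
  have h2 := (spectrum.pow_nnnorm_pow_one_div_tendsto_nhds_spectralRadius T).eventually_lt_const h1
  obtain ⟨N, hN, hN1⟩ := (h2.and (eventually_ge_atTop 1)).exists
  refine ⟨N, hN1, ?_⟩
  by_contra h
  have h3 : (1 : ENNReal) ≤ (‖T ^ N‖₊ : ENNReal) := by
    have : (1 : NNReal) ≤ ‖T ^ N‖₊ := by exact_mod_cast not_lt.1 h
    exact_mod_cast this
  exact absurd hN (not_lt.2 (by simpa using ENNReal.one_le_rpow h3 (by positivity)))

theorem strictlyFeasible_of_spectrum (T : Matrix (Fin n) (Fin n) ℂ)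
    (hT : spectrum ℂ T ⊆ Metric.ball 0 1) : ∃ H τ, MetricStrictlyFeasible T H τ := by
  rcases Nat.eq_zero_or_pos n with rfl | hn
  · have h : ∀ M : Matrix (Fin 0) (Fin 0) ℂ, M.PosDef := fun M => by
      rw [Subsingleton.elim M 1]; exact PosDef.one
    exact ⟨0, 0, h _, h _, h _⟩
  obtain ⟨N, hN, hTN⟩ := exists_pow_norm_lt_one T hn hT
  obtain ⟨N, rfl⟩ : ∃ M, N = M + 1 := ⟨N - 1, by omega⟩
  set H0 : Matrix (Fin n) (Fin n) ℂ := ∑ k ∈ Finset.range (N + 1), (T ^ k)ᴴ * T ^ k with hH0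
  have hpsd : ∀ s : Finset ℕ, ∀ g : ℕ → ℕ, (∑ k ∈ s, (T ^ g k)ᴴ * T ^ g k).PosSemidef :=
    fun s g => posSemidef_sum s fun k _ => posSemidef_conjTranspose_mul_self _
  have h0 : H0.PosSemidef := hpsd _ id
  have h1 : (H0 - 1).PosSemidef := by
    rw [hH0, Finset.sum_range_succ']
    simpa using hpsd (Finset.range N) (· + 1)
  have h2 : H0 - Tᴴ * H0 * T = 1 - (T ^ (N + 1))ᴴ * T ^ (N + 1) := by
    have e : Tᴴ * H0 * T = ∑ k ∈ Finset.range (N + 1), (T ^ (k + 1))ᴴ * T ^ (k + 1) := by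
      rw [hH0, Finset.mul_sum, Finset.sum_mul]
      refine Finset.sum_congr rfl fun k _ => ?_
      rw [pow_succ, conjTranspose_mul]
      simp only [Matrix.mul_assoc]
    rw [e, hH0, Finset.sum_range_succ', Finset.sum_range_succ]
    simp
  have h3 : (1 - (T ^ (N + 1))ᴴ * T ^ (N + 1)).PosDef := by
    set A := (T ^ (N + 1))ᴴ * T ^ (N + 1) with hA
    have hA1 : ‖A‖ < 1 := by
      have : ‖A‖ = ‖T ^ (N + 1)‖ * ‖T ^ (N + 1)‖ := CStarRing.norm_star_mul_self
      rw [this]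
      nlinarith [norm_nonneg (T ^ (N + 1))]
    have e : 1 - A = ((1 - ‖A‖ : ℝ) : ℂ) • (1 : Matrix (Fin n) (Fin n) ℂ)
        + (((‖A‖ : ℝ) : ℂ) • (1 : Matrix (Fin n) (Fin n) ℂ) - A) := by
      push_cast; module
    rw [e]
    exact (PosDef.one.smul (by exact_mod_cast sub_pos.2 hA1)).add_posSemidef
      (posSemidef_norm_smul_sub (posSemidef_conjTranspose_mul_self _).1)
  refine ⟨H0 + H0, ‖H0 + H0‖ + 1, ?_, ?_, ?_⟩
  · have e : H0 + H0 - 1 = 1 + ((H0 - 1) + (H0 - 1)) := by abel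
    rw [e]; exact PosDef.one.add_posSemidef (h1.add h1)
  · have e : ((‖H0 + H0‖ + 1 : ℝ) : ℂ) • (1 : Matrix (Fin n) (Fin n) ℂ) - (H0 + H0)
        = 1 + (((‖H0 + H0‖ : ℝ) : ℂ) • (1 : Matrix (Fin n) (Fin n) ℂ) - (H0 + H0)) := by
      push_cast; module
    rw [e]; exact PosDef.one.add_posSemidef (posSemidef_norm_smul_sub (h0.add h0).1)
  · have e : H0 + H0 - Tᴴ * (H0 + H0) * T = (H0 - Tᴴ * H0 * T) + (H0 - Tᴴ * H0 * T) := by
      rw [Matrix.mul_add, Matrix.add_mul]; abel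
    rw [e, h2]; exact h3.add h3

theorem isClosed_posSemidef : IsClosed {P : Matrix (Fin n) (Fin n) ℂ | P.PosSemidef} := by
  have : {P : Matrix (Fin n) (Fin n) ℂ | P.PosSemidef} = {P | 0 ≤ P} := by
    ext P; exact nonneg_iff_posSemidef.symm
  rw [this]; exact isClosed_Ici

theorem norm_le_of_between {H : Matrix (Fin n) (Fin n) ℂ} {τ : ℝ} (hτ : 0 ≤ τ)
    (h1 : (H - 1).PosSemidef) (h2 : ((τ : ℂ) • (1 : Matrix (Fin n) (Fin n) ℂ) - H).PosSemidef) :
    ‖H‖ ≤ τ := by
  have h0 : 0 ≤ H := by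
    rw [nonneg_iff_posSemidef]
    simpa using h1.add PosSemidef.one
  rw [CStarAlgebra.norm_le_iff_le_algebraMap H hτ h0, Matrix.le_iff, Algebra.algebraMap_eq_smul_one]
  exact h2

theorem one_le_of_feasible (hn : 1 ≤ n) {T H : Matrix (Fin n) (Fin n) ℂ} {τ : ℝ}
    (h : MetricFeasible T H τ) : 1 ≤ τ := by
  have h1 := (h.1.add h.2.1).diag_nonneg (i := ⟨0, hn⟩)
  simp only [sub_add_sub_cancel', Matrix.sub_apply, Matrix.smul_apply, one_apply_eq, smul_eq_mul, mul_one,
    sub_nonneg] at h1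
  exact_mod_cast h1

theorem exists_optimal (hn : 1 ≤ n) (T H0 : Matrix (Fin n) (Fin n) ℂ) (τ0 : ℝ)
    (h : MetricFeasible T H0 τ0) : ∃ H κsq, IsOptimalMetric T H κsq ∧ 1 ≤ κsq ∧ κsq ≤ τ0 := by
  let S : Set (Matrix (Fin n) (Fin n) ℂ × ℝ) := {p | MetricFeasible T p.1 p.2 ∧ p.2 ≤ τ0}
  have hc : IsClosed S := by
    refine IsClosed.inter (IsClosed.inter ?_ (IsClosed.inter ?_ ?_))
      (isClosed_le continuous_snd continuous_const)
    · exact isClosed_posSemidef.preimage (f := fun p : Matrix (Fin n) (Fin n) ℂ × ℝ => p.1 - 1)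
        (by fun_prop)
    · exact isClosed_posSemidef.preimage (f := fun p : Matrix (Fin n) (Fin n) ℂ × ℝ =>
        (p.2 : ℂ) • (1 : Matrix (Fin n) (Fin n) ℂ) - p.1) (by fun_prop)
    · exact isClosed_posSemidef.preimage (f := fun p : Matrix (Fin n) (Fin n) ℂ × ℝ =>
        p.1 - Tᴴ * p.1 * T) (by fun_prop)
  have hb : Bornology.IsBounded S := by
    refine (Metric.isBounded_closedBall (x := 0) (r := τ0)).subset fun p hp => ?_
    have h1 := one_le_of_feasible hn hp.1
    rw [mem_closedBall_zero_iff, Prod.norm_def, max_le_iff]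
    exact ⟨(norm_le_of_between (by linarith) hp.1.1 hp.1.2.1).trans hp.2, by
      rw [Real.norm_of_nonneg (by linarith)]; exact hp.2⟩
  have : ProperSpace (Matrix (Fin n) (Fin n) ℂ) := FiniteDimensional.proper ℂ _
  obtain ⟨p, hp, hmin⟩ := (Metric.isCompact_of_isClosed_isBounded hc hb).exists_isMinOn
    ⟨(H0, τ0), h, le_rfl⟩ continuous_snd.continuousOn
  refine ⟨p.1, p.2, ⟨hp.1, fun H' τ' h' => ?_⟩, one_le_of_feasible hn hp.1, hp.2⟩
  rcases le_total τ' τ0 with h1 | h1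
  · exact hmin (a := (H', τ')) ⟨h', h1⟩
  · exact hp.2.trans h1

theorem exists_trace_rep (f : Matrix (Fin n) (Fin n) ℂ →L[ℂ] ℂ) :
    ∃ Z : Matrix (Fin n) (Fin n) ℂ, Z.IsHermitian ∧
      ∀ P : Matrix (Fin n) (Fin n) ℂ, P.IsHermitian → 2 * (f P).re = (Z * P).trace.re := by
  let Z0 : Matrix (Fin n) (Fin n) ℂ := Matrix.of fun j i => f (single i j 1)
  have h0 : ∀ P : Matrix (Fin n) (Fin n) ℂ, f P = (Z0 * P).trace := by
    intro P
    conv_lhs => rw [matrix_eq_sum_single P]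
    rw [trace_mul_comm]
    simp only [map_sum, trace, diag_apply, mul_apply, Z0, of_apply]
    refine Finset.sum_congr rfl fun i _ => Finset.sum_congr rfl fun j _ => ?_
    rw [← smul_eq_mul, ← map_smul, smul_single, smul_eq_mul, mul_one]
  refine ⟨Z0 + Z0ᴴ, isHermitian_add_transpose_self Z0, fun P hP => ?_⟩
  have h1 : (Z0ᴴ * P).trace = star (Z0 * P).trace := by
    rw [← trace_conjTranspose, conjTranspose_mul, hP.eq, trace_mul_comm]
  rw [Matrix.add_mul, trace_add, h1, h0, Complex.add_re]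
  simp [two_mul]

theorem feasible_four_of_dual (T : Matrix (Fin n) (Fin n) ℂ)
    (h : ∀ ξ η ζ : Matrix (Fin n) (Fin n) ℂ, ξ * ξᴴ + T * (ζ * ζᴴ) * Tᴴ = η * ηᴴ + ζ * ζᴴ →
      (η * ηᴴ).trace.re ≤ 4 * (ξ * ξᴴ).trace.re) : ∃ H, MetricFeasible T H 4 := by
  by_contra hcon
  let C1 : Set (Matrix (Fin n) (Fin n) ℂ) := {H | (H - 1).PosSemidef ∧
    (((4 : ℝ) : ℂ) • (1 : Matrix (Fin n) (Fin n) ℂ) - H).PosSemidef}
  let L : Matrix (Fin n) (Fin n) ℂ →ₗ[ℝ] Matrix (Fin n) (Fin n) ℂ :=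
    { toFun := fun H => H - Tᴴ * H * T
      map_add' := fun a b => by rw [Matrix.mul_add, Matrix.add_mul]; abel
      map_smul' := fun c a => by simp [smul_sub] }
  have hcone : Convex ℝ {P : Matrix (Fin n) (Fin n) ℂ | P.PosSemidef} :=
    fun x hx y hy a b ha hb _ => (PosSemidef.smul hx ha).add (PosSemidef.smul hy hb)
  have hC1 : Convex ℝ C1 := by
    intro x hx y hy a b ha hb hab
    obtain rfl : b = 1 - a := by linarith
    refine ⟨?_, ?_⟩
    · have := hcone hx.1 hy.1 ha hb hab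
      rw [Set.mem_ofPred_eq] at this
      convert this using 1; module
    · have := hcone hx.2 hy.2 ha hb hab
      rw [Set.mem_ofPred_eq] at this
      convert this using 1; module
  have : ProperSpace (Matrix (Fin n) (Fin n) ℂ) := FiniteDimensional.proper ℂ _
  have hK : IsCompact C1 := by
    refine Metric.isCompact_of_isClosed_isBounded (IsClosed.inter ?_ ?_)
      ((Metric.isBounded_closedBall (x := 0) (r := 4)).subset fun H hH => ?_)
    · exact isClosed_posSemidef.preimage (f := fun H : Matrix (Fin n) (Fin n) ℂ => H - 1)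
        (by fun_prop)
    · exact isClosed_posSemidef.preimage (f := fun H : Matrix (Fin n) (Fin n) ℂ =>
        ((4 : ℝ) : ℂ) • (1 : Matrix (Fin n) (Fin n) ℂ) - H) (by fun_prop)
    · rw [mem_closedBall_zero_iff]; exact norm_le_of_between (by norm_num) hH.1 hH.2
  obtain ⟨f, u, v, hs, huv, ht⟩ := RCLike.geometric_hahn_banach_compact_closed (𝕜 := ℂ)
    (hC1.linear_image L) (hK.image (f := L) (by change Continuous fun H => H - Tᴴ * H * T; fun_prop))
    hcone isClosed_posSemidef (by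
      rw [Set.disjoint_left]
      rintro _ ⟨H, hH, rfl⟩ hP
      exact hcon ⟨H, hH.1, hH.2, hP⟩)
  have hv : v < 0 := by simpa using ht 0 PosSemidef.zero
  have hpos : ∀ P : Matrix (Fin n) (Fin n) ℂ, P.PosSemidef → 0 ≤ (f P).re := by
    intro P hP
    by_contra hneg
    have hneg : (f P).re < 0 := not_le.1 hneg
    have h1 := ht (((v / (f P).re : ℝ) : ℂ) • P)
      (PosSemidef.smul hP (by exact_mod_cast (div_pos_of_neg_of_neg hv hneg).le))
    rw [map_smul, smul_eq_mul, RCLike.re_to_complex, Complex.re_ofReal_mul,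
      div_mul_cancel₀ _ hneg.ne] at h1
    exact lt_irrefl _ h1
  obtain ⟨Z, hZ, hrep⟩ := exists_trace_rep f
  have hZ0 : Z.PosSemidef := by
    refine PosSemidef.of_dotProduct_mulVec_nonneg hZ fun x => ?_
    have h1 := hpos _ (posSemidef_vecMulVec_self_star x)
    have h2 := hrep _ (posSemidef_vecMulVec_self_star x).1
    have h3 : (Z * vecMulVec x (star x)).trace = star x ⬝ᵥ Z *ᵥ x := by
      rw [mul_vecMulVec, trace_vecMulVec, dotProduct_comm]
    rw [h3] at h2
    exact Complex.nonneg_iff.2 ⟨by linarith, (hZ.im_star_dotProduct_mulVec_self x).symm⟩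
  obtain ⟨ζ, hζ⟩ : ∃ ζ : Matrix (Fin n) (Fin n) ℂ, Z = ζ * ζᴴ := by
    obtain ⟨B, hB⟩ := CStarAlgebra.nonneg_iff_eq_mul_star_self.1 hZ0.nonneg
    exact ⟨B, hB⟩
  set D := Z - T * Z * Tᴴ with hD
  have hDh : IsSelfAdjoint D := hZ.sub (hZ0.mul_mul_conjTranspose_same T).1
  have hfin : (spectrum ℝ D).Finite := D.finite_real_spectrum
  have hc : ∀ g : ℝ → ℝ, ContinuousOn g (spectrum ℝ D) := fun g => hfin.continuousOn g
  have hsq : ∀ g : ℝ → ℝ, (∀ x, 0 ≤ g x) →
      cfc (fun x => √(g x)) D * (cfc (fun x => √(g x)) D)ᴴ = cfc g D := by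
    intro g hg
    have : (cfc (fun x => √(g x)) D)ᴴ = cfc (fun x => √(g x)) D :=
      (cfc_predicate (p := IsSelfAdjoint) (fun x => √(g x)) D).star_eq
    rw [this, ← cfc_mul _ _ D (hc _) (hc _)]
    exact congrArg (cfc · D) (funext fun x => Real.mul_self_sqrt (hg x))
  have hp := hsq (fun x => max x 0) fun x => le_max_right _ _
  have hm := hsq (fun x => max (-x) 0) fun x => le_max_right _ _
  have hsub : cfc (fun x : ℝ => max x 0) D - cfc (fun x : ℝ => max (-x) 0) D = D := by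
    rw [← cfc_sub _ _ D (hc _) (hc _)]
    conv_rhs => rw [← cfc_id' ℝ D hDh]
    exact congrArg (cfc · D) (funext fun x => max_zero_sub_max_neg_zero_eq_self x)
  have key := h (cfc (fun x : ℝ => √(max x 0)) D) (cfc (fun x : ℝ => √(max (-x) 0)) D) ζ (by
    rw [hp, hm, ← hζ, sub_eq_iff_eq_add.1 hsub, hD]; abel)
  rw [hp, hm] at key
  let g : ℝ → ℝ := fun x => if 0 < x then 4 else 1
  have hg : cfc g D ∈ C1 := by
    constructor
    · exact one_le_cfc g D (fun x _ => by simp only [g]; split_ifs <;> norm_num) (hc _) hDh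
    · have := cfc_le_algebraMap g 4 D (fun x _ => by simp only [g]; split_ifs <;> norm_num)
        (hc _) hDh
      rw [Matrix.le_iff, Algebra.algebraMap_eq_smul_one] at this
      exact this
  have hgh : (cfc g D).IsHermitian := (cfc_predicate (p := IsSelfAdjoint) g D).star_eq
  have h1 := hs _ ⟨_, hg, rfl⟩
  have h2 := hrep (L (cfc g D)) (hgh.sub (isHermitian_conjTranspose_mul_mul T hgh))
  have h3 : (Z * L (cfc g D)).trace = (D * cfc g D).trace := by
    change (Z * (cfc g D - Tᴴ * cfc g D * T)).trace = _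
    rw [hD, Matrix.mul_sub, Matrix.sub_mul, trace_sub, trace_sub, ← hD, ← Matrix.mul_assoc,
      trace_mul_comm _ T]
    simp only [Matrix.mul_assoc]
  have h4 : D * cfc g D = (4 : ℝ) • cfc (fun x : ℝ => max x 0) D
      - cfc (fun x : ℝ => max (-x) 0) D := by
    rw [← cfc_const_mul _ _ D (hc _), ← cfc_sub _ _ D (hc _) (hc _)]
    conv_lhs => enter [1]; rw [← cfc_id' ℝ D hDh]
    rw [← cfc_mul _ _ D (hc _) (hc _)]
    refine congrArg (cfc · D) (funext fun x => ?_)
    simp only [g]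
    split_ifs with hx
    · rw [max_eq_left hx.le, max_eq_right (by linarith)]; ring
    · rw [max_eq_right (by linarith), max_eq_left (by linarith)]; ring
  rw [h3, h4, trace_sub, trace_smul, Complex.sub_re, Complex.real_smul,
    Complex.re_ofReal_mul] at h2
  rw [RCLike.re_to_complex] at h1
  linarith

theorem exists_contraction_of_mul_conjTranspose_eq {k l : Type} [Fintype k] [Fintype l]
    [DecidableEq k] [DecidableEq l] (X Y : Matrix k l ℂ) (h : X * Xᴴ = Y * Yᴴ) :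
    ∃ W : Matrix l l ℂ, Wᴴ * W = 1 ∧ X * W = Y := by
  have hn : ∀ (X : Matrix k l ℂ) (a : EuclideanSpace ℂ k), inner ℂ (toEuclideanLin Xᴴ a)
      (toEuclideanLin Xᴴ a) = inner ℂ a (toEuclideanLin (X * Xᴴ) a) := by
    intro X a
    rw [toEuclideanLin_conjTranspose_eq_adjoint, LinearMap.adjoint_inner_left,
      ← toEuclideanLin_conjTranspose_eq_adjoint]
    simp [toLpLin_apply]
  set A := toEuclideanLin Xᴴ with hA
  set B := toEuclideanLin Yᴴ with hB
  have hAB : ∀ a, ‖B a‖ = ‖A a‖ := fun a => by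
    rw [@norm_eq_sqrt_re_inner ℂ, @norm_eq_sqrt_re_inner ℂ, hA, hB, hn, hn, h]
  obtain ⟨g, hg⟩ := A.rangeRestrict.exists_rightInverse_of_surjective A.range_rangeRestrict
  have hg' : ∀ y : LinearMap.range A, A (g y) = y := fun y =>
    congrArg Subtype.val (LinearMap.congr_fun hg y)
  let V : LinearMap.range A →ₗᵢ[ℂ] EuclideanSpace ℂ l :=
    ⟨B ∘ₗ g, fun y => by rw [LinearMap.comp_apply, hAB, hg']; rfl⟩
  have hV : ∀ a, V.extend (A a) = B a := fun a => by
    rw [V.extend_apply ⟨A a, a, rfl⟩]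
    change B (g _) = B a
    rw [← sub_eq_zero, ← map_sub, ← norm_eq_zero, hAB, map_sub, hg', sub_self, norm_zero]
  obtain ⟨M, hM⟩ := toEuclideanLin.surjective V.extend.toLinearMap
  have h1 : Mᴴ * M = 1 := by
    apply toEuclideanLin.injective
    have e : toEuclideanLin (Mᴴ * M) = toEuclideanLin Mᴴ ∘ₗ toEuclideanLin M := by
      ext1 a; simp [toLpLin_apply]
    rw [e, toEuclideanLin_conjTranspose_eq_adjoint, hM]
    ext1 a
    refine ext_inner_left ℂ fun b => ?_
    rw [LinearMap.comp_apply, LinearMap.adjoint_inner_right]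
    simp
  refine ⟨Mᴴ, by rw [conjTranspose_conjTranspose]; exact mul_eq_one_comm.1 h1, ?_⟩
  apply conjTranspose_injective
  rw [conjTranspose_mul, conjTranspose_conjTranspose]
  apply toEuclideanLin.injective
  ext1 a
  rw [← hB, ← hV, ← LinearIsometry.coe_toLinearMap, ← hM, hA]
  simp [toLpLin_apply]

end Crest.Agent.R132
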