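import Crest.Agent.R132.Defs

/-!
# Row 132: S0179 from the matrix inequality (compression to a Krylov space)
-/

set_option autoImplicit false

open Crest.AnalysisR.NumRange Matrix Polynomial

namespace Crest.Agent.R132

theorem norm_toLp_prod {H : Type*} [NormedAddCommGroup H] {n m : ℕ}
    (u : Fin m → H) (w : Fin m → EuclideanSpace ℂ (Fin n)) (h : ∀ c, ‖w c‖ = ‖u c‖) :
    ‖(WithLp.toLp 2 (fun i : Fin n × Fin m => w i.2 i.1) : EuclideanSpace ℂ (Fin n × Fin m))‖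
      = ‖(WithLp.toLp 2 u : PiLp 2 (fun _ : Fin m => H))‖ := by
  rw [← sq_eq_sq₀ (norm_nonneg _) (norm_nonneg _), PiLp.norm_sq_eq_of_L2, PiLp.norm_sq_eq_of_L2,
    Fintype.sum_prod_type_right]
  refine Finset.sum_congr rfl fun c _ => ?_
  rw [← h, PiLp.norm_sq_eq_of_L2]

theorem s0179_of_cb (hcb : CbCrouzeix)
    {H : Type*} [NormedAddCommGroup H] [InnerProductSpace ℂ H] [CompleteSpace H]
    (A : H →L[ℂ] H) (m d : ℕ) (B : Fin (d + 1) → Matrix (Fin m) (Fin m) ℂ) (M : ℝ)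
    (hM : ∀ x : H, ‖x‖ = 1 →
      ‖Matrix.toEuclideanCLM (n := Fin m) (𝕜 := ℂ)
          (∑ k : Fin (d + 1), (inner ℂ x (A x)) ^ (k : ℕ) • B k)‖ ≤ M)
    (v : PiLp 2 (fun _ : Fin m => H)) :
    ‖(WithLp.toLp 2 (fun i : Fin m => ∑ j : Fin m, ∑ k : Fin (d + 1), B k i j • (A ^ (k : ℕ)) (v j))
        : PiLp 2 (fun _ : Fin m => H))‖ ≤ 2 * M * ‖v‖ := by
  by_cases hv : ∀ j, v j = 0
  · have : v = 0 := by ext j; exact hv j
    subst this
    simp [← Pi.zero_def]
  obtain ⟨j0, hj0⟩ := not_forall.1 hv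
  have hM0 : 0 ≤ M := (norm_nonneg _).trans (hM _ (norm_smul_inv_norm (𝕜 := ℂ) hj0))
  let E : Submodule ℂ H :=
    Submodule.span ℂ (Set.range fun p : Fin (d + 1) × Fin m => (A ^ (p.1 : ℕ)) (v p.2))
  have : FiniteDimensional ℂ E := FiniteDimensional.span_of_finite ℂ (Set.finite_range _)
  have hE : ∀ k ≤ d, ∀ j, (A ^ k) (v j) ∈ E := fun k hk j =>
    Submodule.subset_span ⟨(⟨k, by omega⟩, j), rfl⟩
  let b := stdOrthonormalBasis ℂ E
  set n := Module.finrank ℂ E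
  let J : EuclideanSpace ℂ (Fin n) →ₗᵢ[ℂ] H := E.subtypeₗᵢ.comp b.repr.symm.toLinearIsometry
  let P : H →L[ℂ] EuclideanSpace ℂ (Fin n) := ContinuousLinearMap.adjoint J.toContinuousLinearMap
  have hP : ∀ x w, inner ℂ x (P w) = inner ℂ (J x) w := fun x w =>
    ContinuousLinearMap.adjoint_inner_right _ _ _
  have hJP : ∀ w ∈ E, J (P w) = w := by
    intro w hw
    have e : w = J (b.repr ⟨w, hw⟩) := by simp [J]
    have : P w = b.repr ⟨w, hw⟩ := ext_inner_left ℂ fun x => by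
      rw [hP, ← J.inner_map_map, ← e]
    rw [this, ← e]
  have hnorm : ∀ w ∈ E, ‖P w‖ = ‖w‖ := fun w hw => by rw [← J.norm_map, hJP w hw]
  obtain ⟨A', hA'⟩ := toEuclideanLin.surjective
    (P.toLinearMap ∘ₗ A.toLinearMap ∘ₗ J.toLinearMap)
  have hA1 : ∀ x, toEuclideanLin A' x = P (A (J x)) := fun x => by rw [hA']; rfl
  have hpow : ∀ k ≤ d, ∀ j, (A' ^ k) *ᵥ (P (v j)).ofLp = (P ((A ^ k) (v j))).ofLp := by
    intro k hk j
    induction k with
    | zero => simp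
    | succ k ih =>
      rw [pow_succ', ← mulVec_mulVec, ih (by omega), pow_succ', mul_apply_eq_comp]
      have := hA1 (P ((A ^ k) (v j)))
      rw [hJP _ (hE k (by omega) j)] at this
      rw [← this]; rfl
  have key := hcb n m A' Set.univ isOpen_univ (Set.subset_univ _)
    (fun z => ∑ k : Fin (d + 1), z ^ (k : ℕ) • B k)
    (fun c e => ∑ k : Fin (d + 1), C (B k c e) * X ^ (k : ℕ))
    (fun c e => ⟨0, differentiableOn_const 0, fun z _ => by
      simp only [Matrix.sum_apply, eval_finsetSum, Matrix.smul_apply, smul_eq_mul, eval_mul, eval_C,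
        eval_pow, eval_X, Pi.zero_apply, mul_zero, add_zero]
      exact Finset.sum_congr rfl fun _ _ => mul_comm _ _⟩) M hM0 (by
      rintro _ ⟨x, hx, rfl⟩
      rw [hA1, hP]
      exact hM _ (by rw [J.norm_map, hx]))
  have h1 := norm_toLp_prod (fun j => v j) (fun j => P (v j))
    fun j => hnorm _ (by simpa using hE 0 (Nat.zero_le _) j)
  have h2 := norm_toLp_prod (fun i => ∑ j : Fin m, ∑ k : Fin (d + 1), B k i j • (A ^ (k : ℕ)) (v j))
    (fun i => P (∑ j : Fin m, ∑ k : Fin (d + 1), B k i j • (A ^ (k : ℕ)) (v j)))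
    fun i => hnorm _ (E.sum_mem fun j _ => E.sum_mem fun k _ =>
      E.smul_mem _ (hE k (Nat.lt_succ_iff.1 k.2) j))
  rw [← h2, show ‖v‖ = _ from h1.symm]
  refine le_trans (le_of_eq ?_) (ContinuousLinearMap.le_of_opNorm_le _ key _)
  congr 1
  ext ⟨i, c⟩
  simp only [map_sum, map_smul, ← hpow _ (Nat.lt_succ_iff.1 (Fin.is_lt _)), WithLp.ofLp_sum,
    WithLp.ofLp_smul, Finset.sum_apply, Pi.smul_apply, ofLp_toEuclideanCLM, mulVec, dotProduct,
    matFn, of_apply, Fintype.sum_prod_type_right, map_mul, aeval_C, map_pow, aeval_X,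
    Matrix.sum_apply, Finset.sum_mul, smul_eq_mul, Finset.mul_sum, Algebra.algebraMap_eq_smul_one,
    smul_mul_assoc, Matrix.one_mul, Matrix.smul_apply, mul_assoc]
  exact Finset.sum_congr rfl fun j _ => Finset.sum_comm

end Crest.Agent.R132
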