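import Crest.Agent.R132.Rep
import Crest.Agent.R132.Metric
import Crest.Agent.R132.TH

/-!
# Row 132: S0180 from the completely bounded inequality (transfer-function realisation)
-/

set_option autoImplicit false

open scoped ComplexOrder
open Crest.AnalysisR.NumRange Matrix Polynomial

namespace Crest.Agent.R132

/-- Sum of the squared moduli. -/
noncomputable def nsq {ι : Type*} [Fintype ι] (x : ι → ℂ) : ℝ := ∑ i, ‖x i‖ ^ 2

section
variable {ι : Type*} [Fintype ι]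

theorem nsq_nonneg (x : ι → ℂ) : 0 ≤ nsq x := Finset.sum_nonneg fun _ _ => sq_nonneg _

theorem nsq_eq (x : ι → ℂ) : (nsq x : ℂ) = star x ⬝ᵥ x := by
  simp [nsq, dotProduct, Complex.conj_mul']

theorem nsq_smul (l : ℂ) (x : ι → ℂ) : nsq (l • x) = ‖l‖ ^ 2 * nsq x := by
  simp [nsq, Finset.mul_sum, mul_pow]

theorem norm_sq_eq_nsq (x : EuclideanSpace ℂ ι) : ‖x‖ ^ 2 = nsq x.ofLp :=
  PiLp.norm_sq_eq_of_L2 _ x

theorem nsq_mulVec [DecidableEq ι] {B : Matrix ι ι ℂ} (hB : Bᴴ * B = 1) (x : ι → ℂ) :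
    nsq (B *ᵥ x) = nsq x := by
  have : (nsq (B *ᵥ x) : ℂ) = nsq x := by
    rw [nsq_eq, nsq_eq, star_mulVec, ← dotProduct_mulVec, mulVec_mulVec, hB, one_mulVec]
  exact_mod_cast this

theorem nsq_blocks [DecidableEq ι] {a b c d : Matrix ι ι ℂ}
    (hB : (fromBlocks a b c d)ᴴ * fromBlocks a b c d = 1) (u w : ι → ℂ) :
    nsq (a *ᵥ u + b *ᵥ w) + nsq (c *ᵥ u + d *ᵥ w) = nsq u + nsq w := by
  have := nsq_mulVec hB (Sum.elim u w)
  rw [fromBlocks_mulVec] at this
  simpa [nsq, Fintype.sum_sum_type] using this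

theorem isUnit_one_sub [DecidableEq ι] {a b c d : Matrix ι ι ℂ}
    (hB : (fromBlocks a b c d)ᴴ * fromBlocks a b c d = 1) {l : ℂ} (hl : ‖l‖ < 1) :
    IsUnit (1 - d * diagonal fun _ => l) := by
  rw [isUnit_iff_isUnit_det, isUnit_iff_ne_zero, Ne, ← exists_mulVec_eq_zero_iff]
  rintro ⟨s, hs0, hs⟩
  have e : d *ᵥ (l • s) = s := by
    rw [sub_mulVec, one_mulVec, ← mulVec_mulVec, diagonal_const_mulVec, sub_eq_zero] at hs
    exact hs.symm
  have h := nsq_blocks hB 0 (l • s)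
  rw [mulVec_zero, mulVec_zero, zero_add, zero_add, e, nsq_smul] at h
  have h0 : nsq (0 : ι → ℂ) = 0 := by simp [nsq]
  have h1 : ‖l‖ ^ 2 < 1 := by nlinarith [norm_nonneg l]
  have h2 : nsq s = 0 := by nlinarith [nsq_nonneg s, nsq_nonneg (b *ᵥ (l • s))]
  exact hs0 (dotProduct_star_self_eq_zero.1 (by rw [← nsq_eq, h2]; simp))

theorem norm_transfer_le [DecidableEq ι] {a b c d : Matrix ι ι ℂ}
    (hB : (fromBlocks a b c d)ᴴ * fromBlocks a b c d = 1) {l : ℂ} (hl : ‖l‖ < 1) :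
    ‖toEuclideanCLM (n := ι) (𝕜 := ℂ) (a + b * (diagonal fun _ => l) *
      Ring.inverse (1 - d * diagonal fun _ => l) * c)‖ ≤ 1 := by
  refine ContinuousLinearMap.opNorm_le_bound _ zero_le_one fun u => ?_
  rw [one_mul, ← sq_le_sq₀ (norm_nonneg _) (norm_nonneg _), norm_sq_eq_nsq, norm_sq_eq_nsq,
    ofLp_toEuclideanCLM]
  set s := Ring.inverse (1 - d * diagonal fun _ => l) *ᵥ c *ᵥ u.ofLp with hs
  have e : c *ᵥ u.ofLp + d *ᵥ (l • s) = s := by
    have : (1 - d * diagonal fun _ => l) *ᵥ s = c *ᵥ u.ofLp := by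
      rw [hs, mulVec_mulVec, Ring.mul_inverse_cancel _ (isUnit_one_sub hB hl), one_mulVec]
    rw [← this, sub_mulVec, one_mulVec, ← mulVec_mulVec, diagonal_const_mulVec, sub_add_cancel]
  have h := nsq_blocks hB u.ofLp (l • s)
  rw [e, nsq_smul] at h
  rw [add_mulVec, ← mulVec_mulVec, ← mulVec_mulVec, ← mulVec_mulVec, ← hs, diagonal_const_mulVec]
  have h1 : ‖l‖ ^ 2 < 1 := by nlinarith [norm_nonneg l]
  nlinarith [nsq_nonneg s]

end

section
variable {n m : ℕ} {U : Set ℂ} {A : Matrix (Fin n) (Fin n) ℂ}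

/-- Entrywise `Rep`. -/
def MRep (U : Set ℂ) (A : Matrix (Fin n) (Fin n) ℂ) (F : ℂ → Matrix (Fin m) (Fin m) ℂ)
    (q : Matrix (Fin m) (Fin m) ℂ[X]) : Prop :=
  ∀ c d, Rep U A (fun z => F z c d) (q c d)

variable {F G : ℂ → Matrix (Fin m) (Fin m) ℂ} {q r : Matrix (Fin m) (Fin m) ℂ[X]}

theorem MRep.add (h₁ : MRep U A F q) (h₂ : MRep U A G r) :
    MRep U A (fun z => F z + G z) (q + r) := fun c d => (h₁ c d).add (h₂ c d)

theorem MRep.sub (h₁ : MRep U A F q) (h₂ : MRep U A G r) :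
    MRep U A (fun z => F z - G z) (q - r) := fun c d => (h₁ c d).sub (h₂ c d)

theorem MRep.mul (h₁ : MRep U A F q) (h₂ : MRep U A G r) :
    MRep U A (fun z => F z * G z) (q * r) := fun c d =>
  Rep.sum Finset.univ fun e _ => (h₁ c e).mul (h₂ e d)

theorem MRep.const (a : Matrix (Fin m) (Fin m) ℂ) : MRep U A (fun _ => a) (a.map C) :=
  fun c d => Rep.const U A (a c d)

theorem MRep.diag {f : ℂ → ℂ} {p : ℂ[X]} (h : Rep U A f p) :
    MRep U A (fun z => diagonal fun _ : Fin m => f z) (diagonal fun _ => p) := fun c d => by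
  by_cases hcd : c = d
  · subst hcd; simpa using h
  · simpa [hcd] using Rep.const U A 0

/-- A rectangular matrix as a vector. -/
def vecOf (ξ : Matrix (Fin n) (Fin m) ℂ) : Fin n × Fin m → ℂ := fun i => ξ i.1 i.2

/-- `matFn` on the type of matrices. -/
noncomputable def mF (A : Matrix (Fin n) (Fin n) ℂ) (q : Matrix (Fin m) (Fin m) ℂ[X]) :
    Matrix (Fin n × Fin m) (Fin n × Fin m) ℂ := matFn A fun c d => q c d

theorem mF_mul (q r : Matrix (Fin m) (Fin m) ℂ[X]) : mF A (q * r) = mF A q * mF A r :=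
  matFn_mul A _ _

theorem mF_add (q r : Matrix (Fin m) (Fin m) ℂ[X]) : mF A (q + r) = mF A q + mF A r := by
  ext i j; simp [mF, matFn]

theorem mF_sub (q r : Matrix (Fin m) (Fin m) ℂ[X]) : mF A (q - r) = mF A q - mF A r := by
  ext i j; simp [mF, matFn]

theorem mF_const_mulVec (a : Matrix (Fin m) (Fin m) ℂ) (ξ : Matrix (Fin n) (Fin m) ℂ) :
    mF A (a.map C) *ᵥ vecOf ξ = vecOf (ξ * aᵀ) := by
  ext ⟨i, c⟩
  simp [mF, matFn, vecOf, mulVec, dotProduct, Fintype.sum_prod_type, Matrix.mul_apply,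
    Matrix.algebraMap_matrix_apply, mul_comm]

theorem mF_diag_mulVec (p : ℂ[X]) (ξ : Matrix (Fin n) (Fin m) ℂ) :
    mF A (diagonal fun _ : Fin m => p) *ᵥ vecOf ξ = vecOf (aeval A p * ξ) := by
  ext ⟨i, c⟩
  simp only [mF, matFn, vecOf, mulVec, dotProduct, Fintype.sum_prod_type, Matrix.mul_apply,
    of_apply]
  refine Finset.sum_congr rfl fun j _ => ?_
  rw [Finset.sum_eq_single c (fun e _ he => by simp [he.symm]) (by simp), diagonal_apply_eq]

theorem nsq_vecOf (ξ : Matrix (Fin n) (Fin m) ℂ) : nsq (vecOf ξ) = (ξ * ξᴴ).trace.re := by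
  have : (nsq (vecOf ξ) : ℂ) = (ξ * ξᴴ).trace := by
    simp [nsq, vecOf, Fintype.sum_prod_type, trace, Matrix.mul_apply, Complex.mul_conj']
  rw [← this, Complex.ofReal_re]

open scoped Matrix.Norms.L2Operator in
theorem differentiableOn_inverse_entry {f : ℂ → ℂ} (hf : DifferentiableOn ℂ f U)
    (d : Matrix (Fin m) (Fin m) ℂ) (h : ∀ z ∈ U, IsUnit (1 - d * diagonal fun _ => f z))
    (c e : Fin m) :
    DifferentiableOn ℂ (fun z => (Ring.inverse (1 - d * diagonal fun _ => f z) :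
      Matrix (Fin m) (Fin m) ℂ) c e) U := by
  have h1 : DifferentiableOn ℂ (fun z => 1 - d * diagonal fun _ => f z) U := by
    simp only [← smul_eq_mul_diagonal]
    exact (differentiableOn_const _).sub (hf.smul_const d)
  exact (entryLinearMap ℂ ℂ c e).toContinuousLinearMap.differentiable.comp_differentiableOn
    (h1.inverse h)

end

theorem s0180_of_cb (hcb : CbCrouzeix)
    (n : ℕ) (hn : 1 ≤ n) (A : Matrix (Fin n) (Fin n) ℂ)
    (Ω U : Set ℂ) (hΩ₁ : IsOpen Ω) (_hΩ₂ : Bornology.IsBounded Ω) (_hΩ₃ : Convex ℝ Ω)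
    (_hU : IsOpen U) (hΩU : closure Ω ⊆ U)
    (f : ℂ → ℂ) (hf₁ : DifferentiableOn ℂ f U) (_hf₂ : Set.InjOn f U)
    (hf₃ : f '' Ω = Metric.ball 0 1)
    (hA : numRange A ⊆ Ω) (p : Polynomial ℂ) (hp : AgreesOnSpectrum A f p) :
    (∃ (H : Matrix (Fin n) (Fin n) ℂ) (τ : ℝ), MetricStrictlyFeasible (Polynomial.aeval A p) H τ) ∧
    ∃ (H : Matrix (Fin n) (Fin n) ℂ) (κsq : ℝ),
      IsOptimalMetric (Polynomial.aeval A p) H κsq ∧ 1 ≤ κsq ∧ κsq ≤ 4 := by
  have hs : spectrum ℂ A ⊆ Ω := (spectrum_subset_numRange A).trans hA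
  have hf : DifferentiableOn ℂ f Ω := hf₁.mono (subset_closure.trans hΩU)
  have hl : ∀ z ∈ Ω, ‖f z‖ < 1 := fun z hz =>
    mem_ball_zero_iff.1 (hf₃ ▸ Set.mem_image_of_mem f hz)
  have hrep : Rep Ω A f p := rep_of_agrees hΩ₁ hs hf hp
  refine ⟨strictlyFeasible_of_spectrum _ ?_, ?_⟩
  · have : Nonempty (Fin n) := ⟨⟨0, hn⟩⟩
    rw [spectrum.map_polynomial_aeval_of_nonempty A p
      (spectrum.nonempty_of_isAlgClosed_of_finiteDimensional ℂ A)]
    rintro _ ⟨μ, hμ, rfl⟩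
    have := hp μ hμ 0 hn
    simp only [iteratedDeriv_zero] at this
    rw [mem_ball_zero_iff]
    exact (congrArg norm this).trans_lt (hl μ (hs hμ))
  obtain ⟨H, hH⟩ := feasible_four_of_dual (aeval A p) fun ξ η ζ h => by
    obtain ⟨W, hW, hXW⟩ := exists_contraction_of_mul_conjTranspose_eq
      (fromCols ξ (aeval A p * ζ)) (fromCols η ζ) (by
        simp only [conjTranspose_fromCols_eq_fromRows_conjTranspose, fromCols_mul_fromRows, ← h,
          conjTranspose_mul, Matrix.mul_assoc])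
    rw [← fromBlocks_toBlocks W, fromCols_mul_fromBlocks, fromCols_ext_iff] at hXW
    have hB : (fromBlocks W.toBlocks₁₁ᵀ W.toBlocks₂₁ᵀ W.toBlocks₁₂ᵀ W.toBlocks₂₂ᵀ)ᴴ *
        fromBlocks W.toBlocks₁₁ᵀ W.toBlocks₂₁ᵀ W.toBlocks₁₂ᵀ W.toBlocks₂₂ᵀ = 1 := by
      rw [← fromBlocks_transpose, fromBlocks_toBlocks, show Wᵀᴴ = Wᴴᵀ from rfl,
        ← transpose_mul, mul_eq_one_comm.1 hW, transpose_one]
    set a := W.toBlocks₁₁ᵀ
    set b := W.toBlocks₂₁ᵀ
    set c := W.toBlocks₁₂ᵀ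
    set d := W.toBlocks₂₂ᵀ
    have hu : ∀ z ∈ Ω, IsUnit (1 - d * diagonal fun _ => f z) := fun z hz =>
      isUnit_one_sub hB (hl z hz)
    choose γ hγ using fun c e => exists_rep hΩ₁ hs (differentiableOn_inverse_entry hf d hu c e)
    have hγ' : MRep Ω A (fun z => Ring.inverse (1 - d * diagonal fun _ => f z)) (of γ) := hγ
    have hP : MRep Ω A (fun z => diagonal fun _ : Fin n => f z) (diagonal fun _ => p) :=
      MRep.diag hrep
    have h1 : mF A (of γ * ((1 : Matrix (Fin n) (Fin n) ℂ).map C - d.map C * diagonal fun _ => p))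
        = mF A ((1 : Matrix (Fin n) (Fin n) ℂ).map C) :=
      matFn_congr fun i j => Rep.aeval_eq hΩ₁ hs
        (hγ'.mul ((MRep.const 1).sub ((MRep.const d).mul hP)) i j)
        ((MRep.const 1 i j).congr fun z hz =>
          congrArg (fun M : Matrix (Fin n) (Fin n) ℂ => M i j) (Ring.inverse_mul_cancel _ (hu z hz)))
    have h2 : mF A (of γ) *ᵥ mF A (c.map C) *ᵥ vecOf ξ = vecOf ζ := by
      have := congrArg (· *ᵥ vecOf ζ) h1
      simp only [mF_mul, mF_sub, ← mulVec_mulVec, sub_mulVec, mF_const_mulVec,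
        mF_diag_mulVec, transpose_one, Matrix.mul_one] at this
      refine Eq.trans ?_ this
      rw [mF_const_mulVec, eq_sub_iff_add_eq.2 (show vecOf (ξ * cᵀ) + vecOf (aeval A p * ζ * dᵀ)
        = vecOf ζ from congrArg vecOf hXW.2)]
    have h3 : mF A (a.map C + b.map C * (diagonal fun _ => p) * of γ * c.map C) *ᵥ vecOf ξ
        = vecOf η := by
      simp only [mF_mul, mF_add, ← mulVec_mulVec, add_mulVec, h2]
      simp only [mF_const_mulVec, mF_diag_mulVec]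
      exact congrArg vecOf hXW.1
    have key := hcb n n A Ω hΩ₁ hA _ _
      ((MRep.const a).add ((((MRep.const b).mul hP).mul hγ').mul (MRep.const c))) 1 zero_le_one
      fun z hz => norm_transfer_le hB (hl z (hA hz))
    have h4 := ContinuousLinearMap.le_of_opNorm_le _ key (WithLp.toLp 2 (vecOf ξ))
    rw [← sq_le_sq₀ (norm_nonneg _) (by positivity), mul_pow, norm_sq_eq_nsq, norm_sq_eq_nsq,
      ofLp_toEuclideanCLM] at h4
    rw [← nsq_vecOf, ← nsq_vecOf, ← h3]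
    norm_num at h4
    exact h4
  exact exists_optimal hn _ H 4 hH

end Crest.Agent.R132
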