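import Crest.Agent.R132.Defs

/-!
# Row 132: a small holomorphic functional calculus for matrices
-/

set_option autoImplicit false

namespace Crest.Agent.R132

open Polynomial Metric Set Filter Topology
open Crest.AnalysisR.NumRange

variable {n : ℕ} {U : Set ℂ} {A : Matrix (Fin n) (Fin n) ℂ} {f g : ℂ → ℂ} {p q : ℂ[X]}

theorem Rep.differentiableOn (h : Rep U A f q) : DifferentiableOn ℂ f U := by
  obtain ⟨k, hk, hf⟩ := h
  refine DifferentiableOn.congr (f := fun z => q.eval z + (minpoly ℂ A).eval z * k z) ?_ hf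
  exact q.differentiable.differentiableOn.add
    ((minpoly ℂ A).differentiable.differentiableOn.mul hk)

theorem Rep.of_aeval_eq_zero (χ : ℂ[X]) (hχ : aeval A χ = 0) (k : ℂ → ℂ)
    (hk : DifferentiableOn ℂ k U) (hf : ∀ z ∈ U, f z = q.eval z + χ.eval z * k z) :
    Rep U A f q := by
  obtain ⟨r, hr⟩ := minpoly.dvd ℂ A hχ
  refine ⟨fun z => r.eval z * k z, r.differentiable.differentiableOn.mul hk, fun z hz => ?_⟩
  rw [hf z hz, hr, eval_mul]; ring

theorem Rep.mono {V : Set ℂ} (h : Rep U A f q) (hVU : V ⊆ U) : Rep V A f q := by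
  obtain ⟨k, hk, hf⟩ := h
  exact ⟨k, hk.mono hVU, fun z hz => hf z (hVU hz)⟩

theorem Rep.congr (h : Rep U A f q) (hfg : ∀ z ∈ U, g z = f z) : Rep U A g q := by
  obtain ⟨k, hk, hf⟩ := h
  exact ⟨k, hk, fun z hz => (hfg z hz).trans (hf z hz)⟩

theorem Rep.poly (U : Set ℂ) (A : Matrix (Fin n) (Fin n) ℂ) (q : ℂ[X]) :
    Rep U A (fun z => q.eval z) q :=
  ⟨fun _ => 0, differentiableOn_const _, fun z _ => by simp⟩

theorem Rep.const (U : Set ℂ) (A : Matrix (Fin n) (Fin n) ℂ) (c : ℂ) :
    Rep U A (fun _ => c) (C c) := (Rep.poly U A (C c)).congr (by simp)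

theorem Rep.add (h₁ : Rep U A f p) (h₂ : Rep U A g q) :
    Rep U A (fun z => f z + g z) (p + q) := by
  obtain ⟨k, hk, hf⟩ := h₁
  obtain ⟨l, hl, hg⟩ := h₂
  refine ⟨fun z => k z + l z, hk.add hl, fun z hz => ?_⟩
  simp only [hf z hz, hg z hz, eval_add]; ring

theorem Rep.sub (h₁ : Rep U A f p) (h₂ : Rep U A g q) :
    Rep U A (fun z => f z - g z) (p - q) := by
  obtain ⟨k, hk, hf⟩ := h₁
  obtain ⟨l, hl, hg⟩ := h₂
  refine ⟨fun z => k z - l z, hk.sub hl, fun z hz => ?_⟩
  simp only [hf z hz, hg z hz, eval_sub]; ring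

theorem Rep.mul (h₁ : Rep U A f p) (h₂ : Rep U A g q) :
    Rep U A (fun z => f z * g z) (p * q) := by
  have hgd := h₂.differentiableOn
  obtain ⟨k, hk, hf⟩ := h₁
  obtain ⟨l, hl, hg⟩ := h₂
  refine ⟨fun z => k z * g z + p.eval z * l z,
    (hk.mul hgd).add (p.differentiable.differentiableOn.mul hl), fun z hz => ?_⟩
  simp only [hf z hz, hg z hz, eval_mul]; ring

theorem Rep.sum {ι : Type*} (s : Finset ι) {f : ι → ℂ → ℂ} {q : ι → ℂ[X]}
    (h : ∀ i ∈ s, Rep U A (f i) (q i)) :
    Rep U A (fun z => ∑ i ∈ s, f i z) (∑ i ∈ s, q i) := by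
  classical
  induction s using Finset.induction_on with
  | empty => simpa using Rep.const U A 0
  | insert a s ha ih =>
    simp only [Finset.sum_insert ha]
    exact (h a (Finset.mem_insert_self _ _)).add
      (ih fun i hi => h i (Finset.mem_insert_of_mem hi))

/-- Composition with a polynomial on the outside. -/
theorem Rep.comp_poly (h : Rep U A f p) (r : ℂ[X]) :
    Rep U A (fun z => r.eval (f z)) (r.comp p) := by
  induction r using Polynomial.induction_on with
  | C a => simpa using Rep.const U A a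
  | add r s hr hs => simpa [add_comp] using hr.add hs
  | monomial k a ih =>
    have := ih.mul h
    have e : (C a * X ^ (k + 1) : ℂ[X]).comp p = (C a * X ^ k).comp p * p := by
      simp [pow_succ, mul_assoc]
    rw [e]
    exact this.congr fun z _ => by simp [pow_succ, mul_assoc]

theorem isRoot_minpoly_mem_spectrum {μ : ℂ} (h : μ ∈ (minpoly ℂ A).roots) :
    μ ∈ spectrum ℂ A := by
  rw [Matrix.mem_spectrum_iff_isRoot_charpoly]
  exact (isRoot_of_mem_roots h).dvd (Matrix.minpoly_dvd_charpoly A)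

theorem minpoly_eq_prod (A : Matrix (Fin n) (Fin n) ℂ) :
    minpoly ℂ A = ((minpoly ℂ A).roots.map fun μ => X - C μ).prod := by
  have hm : (minpoly ℂ A).Monic := minpoly.monic (Matrix.isIntegral A)
  exact (IsAlgClosed.splits (minpoly ℂ A)).eq_prod_roots_of_monic hm

theorem eval_minpoly (A : Matrix (Fin n) (Fin n) ℂ) (z : ℂ) :
    (minpoly ℂ A).eval z = ((minpoly ℂ A).roots.map fun μ => z - μ).prod := by
  conv_lhs => rw [minpoly_eq_prod A]
  simp [eval_multiset_prod]

/-- Division with remainder along a multiset of points, in the coordinate `φ`. -/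
theorem exists_div_multiset (hU : IsOpen U) {φ : ℂ → ℂ} (hφ : DifferentiableOn ℂ φ U)
    (s : Multiset ℂ) (hs : ∀ μ ∈ s, μ ∈ U ∧ ∀ z ∈ U, dslope φ μ z ≠ 0)
    (hf : DifferentiableOn ℂ f U) :
    ∃ (q : ℂ[X]) (h : ℂ → ℂ), DifferentiableOn ℂ h U ∧
      ∀ z ∈ U, f z = q.eval (φ z) + (s.map fun μ => φ z - φ μ).prod * h z := by
  induction s using Multiset.induction_on generalizing f with
  | empty => exact ⟨0, f, hf, fun z _ => by simp⟩
  | cons μ t ih =>
    obtain ⟨hμ, hd⟩ := hs μ (Multiset.mem_cons_self _ _)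
    have h1 : DifferentiableOn ℂ (dslope f μ) U :=
      (Complex.differentiableOn_dslope (hU.mem_nhds hμ)).2 hf
    have h2 : DifferentiableOn ℂ (dslope φ μ) U :=
      (Complex.differentiableOn_dslope (hU.mem_nhds hμ)).2 hφ
    obtain ⟨q, h, hh, hq⟩ := ih (f := fun z => dslope f μ z / dslope φ μ z)
      (fun ν hν => hs ν (Multiset.mem_cons_of_mem hν)) (h1.div h2 hd)
    refine ⟨C (f μ) + (X - C (φ μ)) * q, h, hh, fun z hz => ?_⟩
    have e1 := sub_smul_dslope f μ z
    have e2 := sub_smul_dslope φ μ z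
    have e3 := hq z hz
    have e4 := hd z hz
    simp only [smul_eq_mul] at e1 e2
    simp only [Multiset.map_cons, Multiset.prod_cons, eval_add, eval_C, eval_mul, eval_sub, eval_X]
    rw [div_eq_iff e4] at e3
    linear_combination -e1 + (z - μ) * e3 +
      (eval (φ z) q + (Multiset.map (fun μ => φ z - φ μ) t).prod * h z) * e2

/-- Hermite interpolation: every holomorphic function near the spectrum is represented. -/
theorem exists_rep (hU : IsOpen U) (hs : spectrum ℂ A ⊆ U) (hf : DifferentiableOn ℂ f U) :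
    ∃ q, Rep U A f q := by
  obtain ⟨q, h, hh, hq⟩ := exists_div_multiset hU (φ := id) differentiableOn_id
    (minpoly ℂ A).roots (fun μ hμ => ⟨hs (isRoot_minpoly_mem_spectrum hμ), fun z _ => by
      by_cases hz : z = μ
      · subst hz; simp
      · rw [dslope_of_ne _ hz, slope_def_field]; simpa [sub_ne_zero] using hz⟩) hf
  exact ⟨q, h, hh, fun z hz => by rw [eval_minpoly]; simpa using hq z hz⟩

theorem prod_dvd_of_eval_eq (hU : IsOpen U) (s : Multiset ℂ) (hs : ∀ μ ∈ s, μ ∈ U) {h : ℂ → ℂ}
    (hh : ContinuousOn h U) (r : ℂ[X])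
    (hr : ∀ z ∈ U, r.eval z = (s.map fun μ => z - μ).prod * h z) :
    (s.map fun μ => X - C μ).prod ∣ r := by
  induction s using Multiset.induction_on generalizing r with
  | empty => simp
  | cons μ t ih =>
    have hμ := hs μ (Multiset.mem_cons_self _ _)
    have h0 : r.IsRoot μ := by
      rw [IsRoot, hr μ hμ]; simp
    obtain ⟨r₁, rfl⟩ := dvd_iff_isRoot.2 h0
    simp only [Multiset.map_cons, Multiset.prod_cons]
    refine mul_dvd_mul_left _ (ih (fun ν hν => hs ν (Multiset.mem_cons_of_mem hν)) r₁ ?_)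
    have hne : ∀ z ∈ U, z ≠ μ → r₁.eval z = (t.map fun μ => z - μ).prod * h z := by
      intro z hz hzμ
      have := hr z hz
      simp only [Multiset.map_cons, Multiset.prod_cons, eval_mul, eval_sub, eval_X, eval_C,
        mul_assoc] at this
      exact mul_left_cancel₀ (sub_ne_zero.2 hzμ) this
    intro z hz
    by_cases hzμ : z = μ
    · subst hzμ
      have c1 : ContinuousAt (fun w => r₁.eval w) z := r₁.continuous.continuousAt
      have c2 : ContinuousAt (fun w => (t.map fun μ => w - μ).prod * h w) z := by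
        refine ContinuousAt.mul ?_ (hh.continuousAt (hU.mem_nhds hz))
        exact (continuous_multiset_prod t fun μ _ => continuous_id.sub continuous_const).continuousAt
      refine tendsto_nhds_unique_of_eventuallyEq (l := 𝓝[≠] z)
        (c1.tendsto.mono_left nhdsWithin_le_nhds) (c2.tendsto.mono_left nhdsWithin_le_nhds) ?_
      filter_upwards [self_mem_nhdsWithin, mem_nhdsWithin_of_mem_nhds (hU.mem_nhds hz)]
        with w hw hwU using hne w hwU hw
    · exact hne z hz hzμ

/-- The value `q(A)` depends only on the represented function. -/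
theorem Rep.aeval_eq (hU : IsOpen U) (hs : spectrum ℂ A ⊆ U) (h₁ : Rep U A f p)
    (h₂ : Rep U A f q) : aeval A p = aeval A q := by
  obtain ⟨k, hk, hf⟩ := h₁
  obtain ⟨l, hl, hg⟩ := h₂
  have hd : minpoly ℂ A ∣ p - q := by
    rw [minpoly_eq_prod A]
    refine prod_dvd_of_eval_eq hU _ (fun μ hμ => hs (isRoot_minpoly_mem_spectrum hμ))
      (h := fun z => l z - k z) (hl.sub hk).continuousOn _ fun z hz => ?_
    rw [← eval_minpoly, eval_sub]
    linear_combination hg z hz - hf z hz
  obtain ⟨r, hr⟩ := hd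
  rw [← sub_eq_zero, ← map_sub, hr, map_mul, minpoly.aeval, zero_mul]

theorem exists_div_of_order (hU : IsOpen U) (s : Multiset ℂ) (hs : ∀ μ ∈ s, μ ∈ U)
    (hg : DifferentiableOn ℂ g U)
    (ho : ∀ μ ∈ s, ((s.count μ : ℕ) : ℕ∞) ≤ analyticOrderAt g μ) :
    ∃ h : ℂ → ℂ, DifferentiableOn ℂ h U ∧ ∀ z ∈ U, g z = (s.map fun μ => z - μ).prod * h z := by
  classical
  induction s using Multiset.induction_on generalizing g with
  | empty => exact ⟨g, hg, fun z _ => by simp⟩
  | cons μ t ih =>
    have hμ := hs μ (Multiset.mem_cons_self _ _)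
    have h1 : DifferentiableOn ℂ (dslope g μ) U :=
      (Complex.differentiableOn_dslope (hU.mem_nhds hμ)).2 hg
    have h0 : g μ = 0 := by
      apply apply_eq_zero_of_analyticOrderAt_ne_zero
      intro h
      have := ho μ (Multiset.mem_cons_self _ _)
      rw [h] at this
      simp at this
    have hgz : g = (fun z => z - μ) * dslope g μ := by
      funext z
      have e1 := sub_smul_dslope g μ z
      simp only [smul_eq_mul, h0, sub_zero] at e1
      simp [e1]
    obtain ⟨h, hh, hq⟩ := ih (g := dslope g μ) (fun ν hν => hs ν (Multiset.mem_cons_of_mem hν)) h1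
      (fun ν hν => by
        have hν' := hs ν (Multiset.mem_cons_of_mem hν)
        have := ho ν (Multiset.mem_cons_of_mem hν)
        rw [hgz, analyticOrderAt_mul (by fun_prop) (h1.analyticAt (hU.mem_nhds hν'))] at this
        by_cases hνμ : ν = μ
        · subst hνμ
          rw [analyticOrderAt_id_sub_const_self, Multiset.count_cons_self, Nat.cast_add,
            Nat.cast_one, add_comm] at this
          exact (ENat.add_le_add_iff_left ENat.one_ne_top).1 this
        · rw [analyticOrderAt_id_sub_const_of_ne hνμ, Multiset.count_cons_of_ne hνμ,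
            zero_add] at this
          exact this)
    refine ⟨h, hh, fun z hz => ?_⟩
    have e1 := sub_smul_dslope g μ z
    simp only [smul_eq_mul, h0, sub_zero] at e1
    rw [← e1, hq z hz]
    simp [mul_assoc]

/-- The agreement condition of the statements gives a representation. -/
theorem rep_of_agrees (hU : IsOpen U) (hs : spectrum ℂ A ⊆ U) (hf : DifferentiableOn ℂ f U)
    (hp : AgreesOnSpectrum A f p) : Rep U A f p := by
  classical
  have hg : DifferentiableOn ℂ (fun z => f z - p.eval z) U :=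
    hf.sub p.differentiable.differentiableOn
  obtain ⟨h, hh, hq⟩ := exists_div_of_order hU (minpoly ℂ A).roots
    (fun μ hμ => hs (isRoot_minpoly_mem_spectrum hμ)) hg (fun μ hμ => by
      have hμs := isRoot_minpoly_mem_spectrum hμ
      have hμU := hs hμs
      have hc : (minpoly ℂ A).roots.count μ ≤ n := by
        refine (Multiset.count_le_card _ _).trans ((card_roots' _).trans ?_)
        refine (natDegree_le_of_dvd (Matrix.minpoly_dvd_charpoly A)
          (Matrix.charpoly_monic A).ne_zero).trans ?_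
        simp
      refine le_trans (Nat.cast_le.2 hc) ?_
      rw [natCast_le_analyticOrderAt_iff_iteratedDeriv_eq_zero
        (hg.analyticAt (hU.mem_nhds hμU))]
      intro i hi
      have hfa : AnalyticAt ℂ f μ := hf.analyticAt (hU.mem_nhds hμU)
      have hpa : AnalyticAt ℂ (fun z => p.eval z) μ := p.differentiable.analyticAt μ
      rw [iteratedDeriv_fun_sub hfa.contDiffAt hpa.contDiffAt, hp μ hμs i hi, sub_self])
  exact ⟨h, hh, fun z hz => by rw [eval_minpoly]; linear_combination hq z hz⟩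

theorem exists_poly_resolvent (A : Matrix (Fin n) (Fin n) ℂ) (χ : ℂ[X]) :
    ∃ S : ℂ → Matrix (Fin n) (Fin n) ℂ, (∀ i j, Differentiable ℂ fun z => S z i j) ∧
      ∀ z, χ.eval z • (1 : Matrix (Fin n) (Fin n) ℂ) = aeval A χ + (z • 1 - A) * S z := by
  induction χ using Polynomial.induction_on with
  | C a => exact ⟨fun _ => 0, fun i j => by simp, fun z => by
      simp [Algebra.algebraMap_eq_smul_one]⟩
  | add r s hr hs =>
    obtain ⟨S, hS, hr⟩ := hr
    obtain ⟨T, hT, hs⟩ := hs
    refine ⟨fun z => S z + T z, fun i j => (hS i j).add (hT i j), fun z => ?_⟩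
    rw [eval_add, add_smul, hr, hs, map_add, mul_add]; abel
  | monomial k a ih =>
    obtain ⟨S, hS, hr⟩ := ih
    refine ⟨fun z => z • S z + aeval A (C a * X ^ k), fun i j => ?_, fun z => ?_⟩
    · simp only [Matrix.add_apply, Matrix.smul_apply, smul_eq_mul]
      exact (differentiable_id.mul (hS i j)).add_const _
    · have e : (C a * X ^ (k + 1) : ℂ[X]) = X * (C a * X ^ k) := by ring
      rw [e, eval_mul, eval_X, mul_smul, hr z, map_mul (aeval A) X, aeval_X]
      simp only [mul_add, sub_mul, smul_add, Matrix.smul_mul, Matrix.mul_smul, one_mul, smul_sub]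
      abel

/-- `f(z) = q(A) + (z - A) S(z)` with `S` holomorphic. -/
theorem Rep.exists_resolvent (h : Rep U A f q) :
    ∃ S : ℂ → Matrix (Fin n) (Fin n) ℂ, (∀ i j, DifferentiableOn ℂ (fun z => S z i j) U) ∧
      ∀ z ∈ U, f z • (1 : Matrix (Fin n) (Fin n) ℂ) = aeval A q + (z • 1 - A) * S z := by
  obtain ⟨k, hk, hf⟩ := h
  obtain ⟨S, hS, hq⟩ := exists_poly_resolvent A q
  obtain ⟨T, hT, hχ⟩ := exists_poly_resolvent A (minpoly ℂ A)
  refine ⟨fun z => S z + k z • T z, fun i j => ?_, fun z hz => ?_⟩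
  · simp only [Matrix.add_apply, Matrix.smul_apply, smul_eq_mul]
    exact (hS i j).differentiableOn.add (hk.mul (hT i j).differentiableOn)
  · rw [hf z hz, add_smul, hq, mul_comm _ (k z), mul_smul, hχ, minpoly.aeval, zero_add, mul_add,
      Matrix.mul_smul, add_assoc]

theorem matFn_mul {m : ℕ} (A : Matrix (Fin n) (Fin n) ℂ) (q g : Fin m → Fin m → ℂ[X]) :
    matFn A (fun c e => ∑ d, q c d * g d e) = matFn A q * matFn A g := by
  ext ⟨i, c⟩ ⟨j, e⟩
  simp only [matFn, Matrix.of_apply, map_sum, map_mul, Matrix.mul_apply, Matrix.sum_apply,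
    Fintype.sum_prod_type]
  rw [Finset.sum_comm]

theorem matFn_congr {m : ℕ} {q g : Fin m → Fin m → ℂ[X]}
    (h : ∀ c d, aeval A (q c d) = aeval A (g c d)) : matFn A q = matFn A g := by
  ext ⟨i, c⟩ ⟨j, e⟩
  simp only [matFn, Matrix.of_apply, h]

/-- Cauchy's theorem for a closed `C¹` curve in a convex open set. -/
theorem integral_closed_curve_eq_zero {V : Set ℂ} (hVo : IsOpen V) (hVc : Convex ℝ V)
    {h : ℂ → ℂ} (hh : DifferentiableOn ℂ h V) {γ γ' : ℝ → ℂ} {a b : ℝ}
    (hγ : ∀ θ, HasDerivAt γ (γ' θ) θ) (hγ' : Continuous γ') (hγV : ∀ θ, γ θ ∈ V)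
    (hab : γ a = γ b) : ∫ θ in a..b, h (γ θ) * γ' θ = 0 := by
  obtain ⟨P, hP⟩ := hVc.exists_forall_hasDerivWithinAt hh
  have hγc : Continuous γ := continuous_iff_continuousAt.2 fun θ => (hγ θ).continuousAt
  have hd : ∀ θ, HasDerivAt (fun θ => P (γ θ)) (h (γ θ) * γ' θ) θ := fun θ => by
    have h1 : HasDerivAt P (h (γ θ)) (γ θ) :=
      (hP _ (hγV θ)).hasDerivAt (hVo.mem_nhds (hγV θ))
    have h2 := h1.scomp θ (hγ θ)
    rw [smul_eq_mul, mul_comm] at h2
    exact h2
  have hc : Continuous fun θ => h (γ θ) * γ' θ :=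
    (hh.continuousOn.comp_continuous hγc hγV).mul hγ'
  rw [intervalIntegral.integral_eq_sub_of_hasDerivAt (fun θ _ => hd θ)
    (hc.intervalIntegrable _ _), hab, sub_self]

end Crest.Agent.R132
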