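import Crest.Agent.R132.Av

/-!
# Row 132: Faber polynomials and the double-layer kernel of a convex curve
-/

set_option autoImplicit false

namespace Crest.Agent.R132

open Polynomial Metric Set Filter Topology ComplexConjugate

variable {s : ℝ} {H : ℂ → ℂ}

theorem zero_mem_ball_of_one_lt (hs : 1 < s) : (0 : ℂ) ∈ ball (0 : ℂ) s :=
  mem_ball_self (by linarith)

theorem diff_dslope {a : ℂ → ℂ} (ha : DifferentiableOn ℂ a (ball 0 s)) {u : ℂ}
    (hu : u ∈ ball (0 : ℂ) s) : DifferentiableOn ℂ (dslope a u) (ball 0 s) :=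
  (Complex.differentiableOn_dslope (isOpen_ball.mem_nhds hu)).2 ha

/-- Faber polynomials. -/
theorem ExtData.exists_faber (hH : ExtData s H) (k : ℕ) {a : ℂ → ℂ}
    (ha : DifferentiableOn ℂ a (ball 0 s)) :
    ∃ (g : ℂ[X]) (κ : ℂ → ℂ), DifferentiableOn ℂ κ (ball 0 s) ∧ κ 0 = 0 ∧
      ∀ v ∈ ball (0 : ℂ) s, v ≠ 0 → g.eval (H v / v) = a v / v ^ k + κ v := by
  induction k generalizing a with
  | zero =>
    exact ⟨C (a 0), fun v => a 0 - a v, (differentiableOn_const _).sub ha, by simp,
      fun v _ _ => by simp⟩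
  | succ k ih =>
    have h0 := zero_mem_ball_of_one_lt hH.one_lt
    set c : ℂ := a 0 / H 0 ^ (k + 1) with hc
    have hb : DifferentiableOn ℂ (fun v => a v - c * H v ^ (k + 1)) (ball 0 s) :=
      ha.sub ((hH.diff.pow _).const_mul _)
    obtain ⟨g, κ, hκ, hκ0, hg⟩ := ih (diff_dslope hb h0)
    refine ⟨g + C c * X ^ (k + 1), κ, hκ, hκ0, fun v hv hv0 => ?_⟩
    have e := sub_smul_dslope (fun v => a v - c * H v ^ (k + 1)) 0 v
    have e0 : a 0 - c * H 0 ^ (k + 1) = 0 := by
      have := hH.zero_ne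
      rw [hc]; field_simp; ring
    simp only [sub_zero, smul_eq_mul, e0] at e
    simp only [eval_add, eval_mul, eval_C, eval_pow, eval_X, hg v hv hv0]
    have e' := eq_div_of_mul_eq hv0 ((mul_comm _ _).trans e)
    rw [e', div_pow]
    field_simp
    ring

theorem conj_eq_inv_of_norm_one {v : ℂ} (hv : ‖v‖ = 1) : conj v = v⁻¹ :=
  (Complex.inv_eq_conj hv).symm

theorem ne_zero_of_norm_one {v : ℂ} (hv : ‖v‖ = 1) : v ≠ 0 := by
  rintro rfl; simp at hv

theorem ExtData.exists_faber_conj (hH : ExtData s H) (P : ℂ[X]) :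
    ∃ (g : ℂ[X]) (κ : ℂ → ℂ), DifferentiableOn ℂ κ (ball 0 s) ∧ κ 0 = 0 ∧
      ∀ v : ℂ, ‖v‖ = 1 → g.eval (H v / v) = conj (P.eval v) + κ v := by
  induction P using Polynomial.induction_on' with
  | add p q hp hq =>
    obtain ⟨g, κ, hκ, hκ0, hg⟩ := hp
    obtain ⟨g', κ', hκ', hκ0', hg'⟩ := hq
    refine ⟨g + g', fun v => κ v + κ' v, hκ.add hκ', by simp [hκ0, hκ0'], fun v hv => ?_⟩
    simp only [eval_add, hg v hv, hg' v hv, map_add]; ring
  | monomial k c =>
    obtain ⟨g, κ, hκ, hκ0, hg⟩ := hH.exists_faber k (a := fun _ => conj c)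
      (differentiableOn_const _)
    refine ⟨g, κ, hκ, hκ0, fun v hv => ?_⟩
    rw [hg v (mem_ball_of_norm_one hH.one_lt hv) (ne_zero_of_norm_one hv)]
    simp [conj_eq_inv_of_norm_one hv, div_eq_mul_inv]

/-- The regular part of the Cauchy kernel at a boundary point. -/
theorem ExtData.exists_kernel (hH : ExtData s H) {u : ℂ} (hu : ‖u‖ = 1) :
    ∃ R : ℂ → ℂ, DifferentiableOn ℂ R (ball 0 s) ∧ R 0 = 0 ∧
      (∀ v : ℂ, ‖v‖ = 1 → v ≠ u → nrm H v = (H v / v - H u / u) * (R v + u / (u - v))) ∧
      ∀ v : ℂ, ‖v‖ = 1 → 0 ≤ 1 + 2 * (R v).re := by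
  have hub := mem_ball_of_norm_one hH.one_lt hu
  have hu0 := ne_zero_of_norm_one hu
  set N : ℂ → ℂ := fun v => u * H v - v * H u with hN
  have hNd : DifferentiableOn ℂ N (ball 0 s) :=
    (hH.diff.const_mul u).sub (differentiableOn_id.mul_const _)
  have hN' : ∀ v ∈ ball (0 : ℂ) s, HasDerivAt N (u * deriv H v - H u) v := fun v hv => by
    exact (((hH.hasDerivAt hv).const_mul u).sub ((hasDerivAt_id v).mul_const (H u))).congr_deriv
      (by simp)
  set D := dslope N u with hD
  have hDd : DifferentiableOn ℂ D (ball 0 s) := diff_dslope hNd hub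
  have hND : ∀ v, N v = (v - u) * D v := fun v => by
    have e := sub_smul_dslope N u v
    have : N u = 0 := by simp [hN]
    rw [this, sub_zero, smul_eq_mul] at e
    exact e.symm
  have hD0 : ∀ v ∈ ball (0 : ℂ) s, D v ≠ 0 := fun v hv h => by
    by_cases hvu : v = u
    · subst hvu
      rw [hD, dslope_same, (hN' v hv).deriv] at h
      apply hH.nrm_ne v hu
      rw [nrm, div_eq_zero_iff]; left; linear_combination -h
    · have := hND v
      rw [h, mul_zero] at this
      exact hvu (hH.inj u hub v hv (by simpa [hN, sub_eq_zero] using this)).symm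
  have hRd : DifferentiableOn ℂ (fun v => -v * deriv D v / D v) (ball 0 s) :=
    (differentiableOn_id.neg.mul (hDd.deriv isOpen_ball)).div hDd hD0
  have hform : ∀ v : ℂ, ‖v‖ = 1 → v ≠ u →
      nrm H v = (H v / v - H u / u) * (-v * deriv D v / D v + u / (u - v)) := by
    intro v hv hvu
    have hvb := mem_ball_of_norm_one hH.one_lt hv
    have hv0 := ne_zero_of_norm_one hv
    have hD' : HasDerivAt D (deriv D v) v :=
      (hDd.differentiableAt (isOpen_ball.mem_nhds hvb)).hasDerivAt
    have h1 : HasDerivAt N (1 * D v + (v - u) * deriv D v) v := by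
      have : N = fun v => (v - u) * D v := funext hND
      rw [this]
      exact ((hasDerivAt_id v).sub_const u).mul hD'
    have h2 := (hN' v hvb).unique h1
    have h3 := hND v
    have h4 := hD0 v hvb
    have h5 : u - v ≠ 0 := sub_ne_zero.2 (Ne.symm hvu)
    simp only [hN] at h3
    have h6 : H v / v - H u / u = (v - u) * D v / (u * v) := by
      rw [← h3]; field_simp
    rw [h6, nrm]
    field_simp
    linear_combination (-(u - v) * v) * h2 + (u - v) * h3
  refine ⟨_, hRd, by simp, hform, ?_⟩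
  refine nonneg_of_ne (φ := fun v => 1 + 2 * (-v * deriv D v / D v).re) ?_ u ?_
  · exact continuousOn_const.add (continuousOn_const.mul
      (Complex.continuous_re.comp_continuousOn (CS.of_holo hH.one_lt hRd)))
  · intro v hv hvu
    have h1 := hH.conv u v hu hv
    have h2 := hH.nrm_ne v hv
    rw [hform v hv hvu] at h1 h2
    set a := H v / v - H u / u
    set R := -v * deriv D v / D v
    have ha : a ≠ 0 := left_ne_zero_of_mul h2
    have h3 : (u / (u - v)).re = 1 / 2 := by
      have h5 : u - v ≠ 0 := sub_ne_zero.2 (Ne.symm hvu)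
      have hv0 := ne_zero_of_norm_one hv
      have : u / (u - v) + conj (u / (u - v)) = 1 := by
        simp only [map_div₀, map_sub, conj_eq_inv_of_norm_one hv, conj_eq_inv_of_norm_one hu]
        have h7 : u⁻¹ - v⁻¹ = -(u - v) / (u * v) := by field_simp; ring
        rw [h7]; field_simp; ring
      rw [Complex.add_conj] at this
      have := congrArg Complex.re this
      simp at this
      linarith
    have h4 : a * conj (a * (R + u / (u - v))) = (Complex.normSq a : ℂ) * conj (R + u / (u - v)) := by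
      rw [map_mul, ← mul_assoc, Complex.mul_conj]
    rw [h4, Complex.re_ofReal_mul, Complex.conj_re, Complex.add_re, h3] at h1
    have h6 : 0 < Complex.normSq a := Complex.normSq_pos.2 ha
    have := (mul_nonneg_iff_of_pos_left h6).1 h1
    linarith

theorem diffOn_poly (P : ℂ[X]) (U : Set ℂ) : DifferentiableOn ℂ (fun v => P.eval v) U :=
  P.differentiable.differentiableOn

/-- The kernel reproduces the anti-analytic part of a Faber polynomial. -/
theorem ExtData.hasAv_conj_mul_kernel (hH : ExtData s H) {u : ℂ} (hu : ‖u‖ = 1) {R : ℂ → ℂ}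
    (hR : DifferentiableOn ℂ R (ball 0 s)) (hR0 : R 0 = 0)
    (hform : ∀ v : ℂ, ‖v‖ = 1 → v ≠ u → nrm H v = (H v / v - H u / u) * (R v + u / (u - v)))
    {P g : ℂ[X]} {κ : ℂ → ℂ} (hκ : DifferentiableOn ℂ κ (ball 0 s)) (hκ0 : κ 0 = 0)
    (hg : ∀ v : ℂ, ‖v‖ = 1 → g.eval (H v / v) = conj (P.eval v) + κ v) :
    HasAv (fun v => conj (P.eval v) * R v) (κ u) := by
  have hs := hH.one_lt
  have hub := mem_ball_of_norm_one hs hu
  have hu0 := ne_zero_of_norm_one hu
  have hcs : CS fun v => conj (P.eval v) * R v :=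
    (CS.of_holo hs (diffOn_poly P _)).conj.mul (CS.of_holo hs hR)
  have h1 := hH.hasAv_nrm isOpen_univ convex_univ (fun _ _ => mem_univ _)
    (h := dslope (fun z => g.eval z) (H u / u))
    ((Complex.differentiableOn_dslope univ_mem).2 (diffOn_poly g _))
  have h2 := HasAv.holo hs (hκ.mul hR)
  have h3 := (HasAv.holo hs hR).const_mul (conj (P.eval u) + κ u)
  have h4 := (HasAv.holo hs (differentiableOn_id.mul
    (diff_dslope (diffOn_poly P (ball 0 s)) hub))).conj
  have h5 := (HasAv.holo hs (diff_dslope hκ hub)).const_mul u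
  have h6 := h1.eq_of_ne ((((hcs.hasAv.add h2).sub h3).add h4).sub h5) u (fun v hv hvu => by
    have hv0 := ne_zero_of_norm_one hv
    have e1 := sub_smul_dslope (fun z => g.eval z) (H u / u) (H v / v)
    have e2 := sub_smul_dslope (fun z => P.eval z) u v
    have e3 := sub_smul_dslope κ u v
    have h7 : u - v ≠ 0 := sub_ne_zero.2 (Ne.symm hvu)
    simp only [smul_eq_mul] at e1 e2 e3
    rw [hg v hv, hg u hu] at e1
    have e4 := congrArg conj e2
    simp only [map_mul, map_sub, conj_eq_inv_of_norm_one hv, conj_eq_inv_of_norm_one hu] at e4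
    simp only [Pi.mul_apply, id, map_mul, conj_eq_inv_of_norm_one hv]
    rw [hform v hv hvu, ← mul_assoc, mul_comm (dslope _ _ _), e1]
    have e5 : conj (dslope (fun z => P.eval z) u v) =
        (conj (P.eval v) - conj (P.eval u)) * (u * v) / (u - v) := by
      rw [← e4]; field_simp
    have e6 : dslope κ u v = (κ u - κ v) / (u - v) := by
      rw [eq_div_iff h7]; linear_combination -e3
    rw [e5, e6]
    field_simp
    ring)
  have e7 : dslope κ u 0 = κ u / u := by
    have e3 := sub_smul_dslope κ u 0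
    rw [eq_div_iff hu0]
    simp only [smul_eq_mul, hκ0] at e3
    linear_combination -e3
  refine hcs.hasAv.of_eq ?_
  simp only [Pi.mul_apply, hR0, mul_zero, id, zero_mul, map_zero, add_zero, sub_zero, e7] at h6
  rw [mul_div_cancel₀ _ hu0] at h6
  linear_combination -h6

theorem exists_split_mul_conj (P Q : ℂ[X]) : ∃ P₁ Q₁ : ℂ[X], ∀ v : ℂ, ‖v‖ = 1 →
    P.eval v * conj (Q.eval v) = P₁.eval v + conj (Q₁.eval v) := by
  induction P using Polynomial.induction_on with
  | C a => exact ⟨0, C (conj a) * Q, fun v _ => by simp⟩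
  | add p q hp hq =>
    obtain ⟨P₁, Q₁, h₁⟩ := hp
    obtain ⟨P₂, Q₂, h₂⟩ := hq
    refine ⟨P₁ + P₂, Q₁ + Q₂, fun v hv => ?_⟩
    simp only [eval_add, map_add, add_mul, h₁ v hv, h₂ v hv]; ring
  | monomial k a ih =>
    obtain ⟨P₁, Q₁, h₁⟩ := ih
    refine ⟨X * P₁ + C (conj (Q₁.coeff 0)) * X, Q₁.divX, fun v hv => ?_⟩
    have hv0 := ne_zero_of_norm_one hv
    have e := congrArg (fun r => conj (eval v r)) (X_mul_divX_add Q₁)
    have e2 := h₁ v hv
    simp only [eval_add, eval_mul, eval_X, eval_C, eval_pow, map_add, map_mul,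
      conj_eq_inv_of_norm_one hv] at e e2 ⊢
    rw [← e] at e2
    have e3 : v * v⁻¹ = 1 := mul_inv_cancel₀ hv0
    linear_combination v * e2 + conj (eval v Q₁.divX) * e3

theorem re_mul_conj_self (z : ℂ) : (z * conj z).re = ‖z‖ ^ 2 := by
  rw [Complex.mul_conj, Complex.ofReal_re, Complex.normSq_eq_norm_sq]

/-- The anti-analytic part of a Faber transform is dominated by the analytic part. -/
theorem ExtData.faber_bound (hH : ExtData s H) {P g : ℂ[X]} {κ : ℂ → ℂ}
    (hκ : DifferentiableOn ℂ κ (ball 0 s)) (hκ0 : κ 0 = 0)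
    (hg : ∀ v : ℂ, ‖v‖ = 1 → g.eval (H v / v) = conj (P.eval v) + κ v) :
    (av fun v => κ v * conj (κ v)).re + ‖P.eval 0‖ ^ 2 ≤
      (av fun v => P.eval v * conj (P.eval v)).re := by
  have hs := hH.one_lt
  obtain ⟨P₁, Q₁, hPQ⟩ := exists_split_mul_conj P P
  obtain ⟨g₁, ψ, hψ, hψ0, hg₁⟩ := hH.exists_faber_conj Q₁
  have cP := CS.of_holo hs (diffOn_poly P (ball 0 s))
  have cκ := CS.of_holo hs hκ
  have hPP : HasAv (fun v => P.eval v * conj (P.eval v)) _ := (CS.hasAv (cP.mul cP.conj))
  set a := av fun v => P.eval v * conj (P.eval v)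
  have key : ∀ u : ℂ, ‖u‖ = 1 →
      ((conj (P.eval 0) + κ u) * conj (conj (P.eval 0) + κ u)).re ≤ (a + ψ u + conj (ψ u)).re := by
    intro u hu
    obtain ⟨R, hR, hR0, hform, hpos⟩ := hH.exists_kernel hu
    set α := conj (P.eval 0) + κ u
    have a1 := hH.hasAv_conj_mul_kernel hu hR hR0 hform hκ hκ0 hg
    have a2 := hH.hasAv_conj_mul_kernel hu hR hR0 hform hψ hψ0 hg₁
    have a3 := HasAv.holo hs ((diffOn_poly P₁ (ball 0 s)).mul hR)
    have a4 := HasAv.holo hs ((diffOn_poly P (ball 0 s)).mul hR)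
    have a5 := HasAv.holo hs (diffOn_poly P (ball 0 s))
    have a6 := HasAv.holo hs hR
    -- `|P|² R`
    have b1 : HasAv (fun v => P.eval v * conj (P.eval v) * R v) (ψ u) :=
      ((a3.add a2).congr fun v hv => by simp only [Pi.mul_apply, hPQ v hv]; ring).of_eq
        (by simp [hR0])
    have b2 : HasAv (fun v => P.eval v * conj (P.eval v) * (1 + R v + conj (R v)))
        (a + ψ u + conj (ψ u)) :=
      ((hPP.add b1).add b1.conj).congr fun v _ => by
        simp only [map_mul, Complex.conj_conj]; ring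
    have b3 : HasAv (fun v => conj (P.eval v) * (1 + R v + conj (R v))) α :=
      (((a5.conj.add a1).add a4.conj).congr fun v _ => by
        simp only [Pi.mul_apply, map_mul]; ring).of_eq (by simp [hR0, α])
    have b4 : HasAv (fun v => 1 + R v + conj (R v)) 1 :=
      (((HasAv.const 1).add a6).add a6.conj).of_eq (by simp [hR0])
    have b5 := (((b2.sub (b3.const_mul (conj α))).sub (b3.conj.const_mul α)).add
      (b4.const_mul (α * conj α))).re_nonneg fun v hv => by
        have e : P.eval v * conj (P.eval v) * (1 + R v + conj (R v)) -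
            conj α * (conj (P.eval v) * (1 + R v + conj (R v))) -
            α * conj (conj (P.eval v) * (1 + R v + conj (R v))) +
            α * conj α * (1 + R v + conj (R v)) =
            ((conj (P.eval v) - α) * conj (conj (P.eval v) - α)) * (1 + (R v + conj (R v))) := by
          simp only [map_mul, map_add, map_sub, map_one, Complex.conj_conj]; ring
        rw [e, Complex.mul_conj, Complex.add_conj, Complex.re_ofReal_mul]
        refine mul_nonneg (Complex.normSq_nonneg _) ?_
        simpa using hpos v hv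
    have e : a + ψ u + conj (ψ u) - conj α * α - α * conj α + α * conj α * 1 =
        a + ψ u + conj (ψ u) - α * conj α := by ring
    rw [e, Complex.sub_re] at b5
    linarith
  have c1 := HasAv.holo hs hκ
  have c2 := HasAv.holo hs hψ
  have c3 : HasAv (fun v => κ v * conj (κ v)) _ := CS.hasAv (cκ.mul cκ.conj)
  have c4 := (((HasAv.const (P.eval 0 * conj (P.eval 0))).add c3).add
    (c1.const_mul (P.eval 0))).add (c1.conj.const_mul (conj (P.eval 0)))
  have c5 := c4.re_le (((HasAv.const a).add c2).add c2.conj) fun u hu => by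
    refine le_of_eq_of_le ?_ (key u hu)
    congr 1
    simp only [map_add, Complex.conj_conj]; ring
  simp only [hκ0, hψ0, mul_zero, map_zero, add_zero, Complex.add_re, re_mul_conj_self] at c5
  linarith

/-- Uniform polynomial approximation on the unit circle with the right value at `0`. -/
theorem exists_poly_approx (hs : 1 < s) {a : ℂ → ℂ} (ha : DifferentiableOn ℂ a (ball 0 s))
    {δ : ℝ} (hδ : 0 < δ) :
    ∃ P : ℂ[X], P.eval 0 = a 0 ∧ ∀ v : ℂ, ‖v‖ = 1 → ‖P.eval v - a v‖ ≤ δ := by
  obtain ⟨r₂, h1, h2⟩ := exists_between hs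
  obtain ⟨r₁, h3, h4⟩ := exists_between h1
  lift r₂ to NNReal using by linarith
  lift r₁ to NNReal using by linarith
  have hp := (ha.mono (closedBall_subset_ball h2)).hasFPowerSeriesOnBall
    (by have : (0 : ℝ) < r₂ := by linarith
        exact_mod_cast this)
  set p := cauchyPowerSeries a 0 r₂
  have hu := hp.tendstoUniformlyOn (r' := r₁) (by exact_mod_cast h4)
  rw [Metric.tendstoUniformlyOn_iff] at hu
  obtain ⟨N, hN1, hN⟩ := ((eventually_ge_atTop 1).and (hu δ hδ)).exists
  have hev : ∀ v, (∑ k ∈ Finset.range N, monomial k (p.coeff k)).eval v = p.partialSum N v := by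
    intro v
    simp [eval_finsetSum, FormalMultilinearSeries.partialSum, mul_comm]
  refine ⟨∑ k ∈ Finset.range N, monomial k (p.coeff k), ?_, fun v hv => ?_⟩
  · obtain ⟨N, rfl⟩ := Nat.exists_eq_add_of_le' hN1
    have h0 : p.coeff 0 = a 0 := hp.coeff_zero (fun _ => 1)
    rw [eval_finsetSum, Finset.sum_range_succ']
    simp [h0]
  · have := hN v (by simp [hv, h3])
    rw [hev, ← dist_eq_norm, dist_comm]
    simpa using this.le

/-- The scalar extremal inequality. -/
theorem ExtData.exists_poly_ge (hH : ExtData s H) {a : ℂ → ℂ}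
    (ha : DifferentiableOn ℂ a (ball 0 s)) {δ : ℝ} (hδ : 0 < δ) :
    ∃ g : ℂ[X], ((av fun v => a v * conj (a v)).re + ‖a 0‖ ^ 2) / 2 - δ ≤
      2 * (av fun v => g.eval (H v / v) * a v).re -
        (av fun v => g.eval (H v / v) * conj (g.eval (H v / v))).re := by
  have hs := hH.one_lt
  have hb : DifferentiableOn ℂ (fun v => (a v + a 0) / 2) (ball 0 s) :=
    (ha.add_const _).div_const _
  obtain ⟨P, hP0, hP⟩ := exists_poly_approx hs hb (δ := √(δ / 2)) (by positivity)
  obtain ⟨g, κ, hκ, hκ0, hg⟩ := hH.exists_faber_conj P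
  refine ⟨g, ?_⟩
  have hbound := hH.faber_bound hκ hκ0 hg
  set e : ℂ → ℂ := fun v => P.eval v - (a v + a 0) / 2 with he
  have hed : DifferentiableOn ℂ e (ball 0 s) := (diffOn_poly P _).sub hb
  have he0 : e 0 = 0 := by simp [he, hP0]
  have hP0' : P.eval 0 = a 0 := by rw [hP0]; ring
  have hPe : ∀ v, P.eval v = (a v + a 0) / 2 + e v := fun v => by simp [he]
  have ca := CS.of_holo hs ha
  have ce := CS.of_holo hs hed
  have cκ := CS.of_holo hs hκ
  have haa : HasAv (fun v => a v * conj (a v)) _ := CS.hasAv (ca.mul ca.conj)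
  have hee : HasAv (fun v => e v * conj (e v)) _ := CS.hasAv (ce.mul ce.conj)
  have hea : HasAv (fun v => conj (e v) * a v) _ := CS.hasAv (ce.conj.mul ca)
  have hκκ : HasAv (fun v => κ v * conj (κ v)) _ := CS.hasAv (cκ.mul cκ.conj)
  set A := av fun v => a v * conj (a v)
  set E := av fun v => e v * conj (e v)
  set B := av fun v => conj (e v) * a v
  set K := av fun v => κ v * conj (κ v)
  have a1 := HasAv.holo hs ha
  have e1 := HasAv.holo hs hed
  have hE : E.re ≤ δ / 2 := by
    have := hee.re_le (HasAv.const ((δ / 2 : ℝ) : ℂ)) fun v hv => by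
      rw [re_mul_conj_self, Complex.ofReal_re]
      have h1 := hP v hv
      calc ‖e v‖ ^ 2 ≤ √(δ / 2) ^ 2 := by gcongr
        _ = δ / 2 := Real.sq_sqrt (by positivity)
    simpa using this
  -- `⟨g ∘ Γ, a⟩`
  have h1 : HasAv (fun v => g.eval (H v / v) * a v) (A / 2 + conj (a 0) * a 0 / 2 + B) := by
    refine (((((haa.const_mul (1 / 2)).add (a1.const_mul (conj (a 0) / 2))).add hea).add
      (HasAv.holo hs (hκ.mul ha))).congr fun v hv => ?_).of_eq (by simp [hκ0]; ring)
    rw [hg v hv, hPe v]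
    simp only [map_add, map_div₀, Pi.mul_apply, Complex.conj_ofNat]; ring
  -- `‖P‖²`
  have h2 : HasAv (fun v => P.eval v * conj (P.eval v))
      (A / 4 + 3 * (conj (a 0) * a 0) / 4 + B / 2 + conj B / 2 + E) := by
    refine (((((((((haa.const_mul (1 / 4)).add (a1.const_mul (conj (a 0) / 4))).add
      (a1.conj.const_mul (a 0 / 4))).add (HasAv.const (conj (a 0) * a 0 / 4))).add
      (hea.const_mul (1 / 2))).add (hea.conj.const_mul (1 / 2))).add hee).add
      (e1.const_mul (conj (a 0) / 2))).add (e1.conj.const_mul (a 0 / 2))).congr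
      (fun v hv => ?_) |>.of_eq (by simp [he0]; ring)
    rw [hPe v]
    simp only [map_add, map_div₀, map_mul, Complex.conj_ofNat, Complex.conj_conj]; ring
  -- `‖g ∘ Γ‖²`
  have hPκ := HasAv.holo hs ((diffOn_poly P (ball 0 s)).mul hκ)
  have h3 : HasAv (fun v => g.eval (H v / v) * conj (g.eval (H v / v)))
      (A / 4 + 3 * (conj (a 0) * a 0) / 4 + B / 2 + conj B / 2 + E + K) := by
    refine ((((h2.add hκκ).add hPκ).add hPκ.conj).congr fun v hv => ?_).of_eq (by simp [hκ0])
    rw [hg v hv]
    simp only [map_add, map_mul, Pi.mul_apply, Complex.conj_conj]; ring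
  rw [h1.2, h3.2]
  rw [h2.2, hP0'] at hbound
  have e2 : (conj (a 0) * a 0).re = ‖a 0‖ ^ 2 := by rw [mul_comm, re_mul_conj_self]
  simp only [Complex.add_re, Complex.div_ofNat_re, Complex.conj_re, Complex.mul_re,
    Complex.re_ofNat, Complex.im_ofNat, Complex.conj_im] at hbound e2 ⊢
  linarith

end Crest.Agent.R132
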